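import Vale.Agent.Lib.P037.Final

namespace Vale.Agent.Lib.P037

open Finset

/-- The `k × k` permutation matrix of `σ`: a one at `(i, σ i)` for every `i`, zeros elsewhere. -/
def permPattern {k : ℕ} (σ : Equiv.Perm (Fin k)) : Fin k → Fin k → Bool :=
  fun i j => decide (σ i = j)

/-- entrywise complement -/
def compl {k n : ℕ} (A : Fin k → Fin n → Bool) : Fin k → Fin n → Bool := fun r c => !(A r c)

theorem compl_apply {k n : ℕ} (A : Fin k → Fin n → Bool) (r : Fin k) (c : Fin n) :
    compl A r c = !(A r c) := rfl

theorem numCopies_compl {k n : ℕ} (H : Fin k → Fin k → Bool) (A : Fin n → Fin n → Bool) :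
    numCopies (compl H) (compl A) = numCopies H A := by
  unfold numCopies
  congr 1
  ext p
  rw [Finset.mem_filter, Finset.mem_filter]
  constructor
  · rintro ⟨-, h1, h2, h3⟩
    refine ⟨Finset.mem_univ _, h1, h2, fun i j => ?_⟩
    have := h3 i j
    rw [compl_apply, compl_apply] at this
    exact Bool.not_inj this
  · rintro ⟨-, h1, h2, h3⟩
    refine ⟨Finset.mem_univ _, h1, h2, fun i j => ?_⟩
    rw [compl_apply, compl_apply, h3 i j]

theorem numDiff_compl {n : ℕ} (A B : Fin n → Fin n → Bool) :
    numDiff (compl A) (compl B) = numDiff A B := by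
  unfold numDiff
  congr 1
  ext p
  rw [Finset.mem_filter, Finset.mem_filter]
  constructor
  · rintro ⟨-, h⟩
    refine ⟨Finset.mem_univ _, fun h2 => h ?_⟩
    rw [compl_apply, compl_apply, h2]
  · rintro ⟨-, h⟩
    refine ⟨Finset.mem_univ _, fun h2 => h ?_⟩
    rw [compl_apply, compl_apply] at h2
    exact Bool.not_inj h2

theorem compl_compl {k n : ℕ} (A : Fin k → Fin n → Bool) : compl (compl A) = A := by
  funext r c
  simp [compl]

theorem fin_two_cases (x : Fin 2) : x = 0 ∨ x = 1 := by
  fin_cases x
  · left; rfl
  · right; rfl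

theorem perm_two_cases (σ : Equiv.Perm (Fin 2)) :
    permPattern σ = idPattern ∨ permPattern σ = compl idPattern := by
  rcases fin_two_cases (σ 0) with h | h
  · left
    have h1 : σ 1 = 1 := by
      rcases fin_two_cases (σ 1) with h' | h'
      · exfalso
        have h2 : σ 1 = σ 0 := h'.trans h.symm
        exact absurd (σ.injective h2) (by decide)
      · exact h'
    funext i j
    fin_cases i <;> fin_cases j <;> simp [permPattern, idPattern, h, h1]
  · right
    have h1 : σ 1 = 0 := by
      rcases fin_two_cases (σ 1) with h' | h'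
      · exact h'
      · exfalso
        have h2 : σ 1 = σ 0 := h'.trans h.symm
        exact absurd (σ.injective h2) (by decide)
    funext i j
    fin_cases i <;> fin_cases j <;> simp [permPattern, idPattern, compl, h, h1]

theorem perm_removal (σ : Equiv.Perm (Fin 2)) (n : ℕ) (ε : ℝ) (A : Fin n → Fin n → Bool)
    (hε : 0 < ε) (hε1 : ε < 1)
    (hfar : ∀ B : Fin n → Fin n → Bool, numCopies (permPattern σ) B = 0 →
      ε * (n : ℝ) ^ 2 ≤ (numDiff A B : ℝ)) :
    (ε / 128) ^ 24 * (n : ℝ) ^ 4 ≤ (numCopies (permPattern σ) A : ℝ) := by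
  rcases perm_two_cases σ with h | h
  · rw [h] at hfar ⊢
    exact identity_removal n ε A hε hε1 hfar
  · rw [h] at hfar ⊢
    have key := identity_removal n ε (compl A) hε hε1 (by
      intro B hB
      have h1 := hfar (compl B) (by rw [numCopies_compl]; exact hB)
      rw [← numDiff_compl, compl_compl] at h1
      exact h1)
    rw [← numCopies_compl, compl_compl] at key
    exact key

end Vale.Agent.Lib.P037
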