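import Vale.Agent.Lib.P037.H19.All
import Vale.Agent.Lib.P037.EPat.Matrix

namespace Vale.Agent.Lib.P037

theorem cornerPattern_eq : cornerPattern = ePattern := by
  funext i j
  fin_cases i <;> fin_cases j <;> rfl

theorem pow_compare (ε : ℝ) (hε : 0 < ε) (hε1 : ε < 1) :
    (ε / 128) ^ 24 ≤ (ε / 46) ^ 20 := by
  have h1 : ε / 128 ≤ ε / 46 := by
    apply div_le_div_of_nonneg_left hε.le (by norm_num) (by norm_num)
  have h2 : 0 ≤ ε / 128 := by positivity
  have h3 : ε / 128 ≤ 1 := by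
    rw [div_le_one (by norm_num)]
    linarith
  calc (ε / 128) ^ 24 ≤ (ε / 128) ^ 20 := pow_le_pow_of_le_one h2 h3 (by norm_num)
    _ ≤ (ε / 46) ^ 20 := pow_le_pow_left₀ h2 h1 20

theorem removal_corner : Removal cornerPattern (fun ε => (ε / 128) ^ 24) := by
  rw [cornerPattern_eq]
  intro n ε A hε hε1 hfar
  have h1 := E_removal n ε A hε hε1 hfar
  have h2 : (ε / 128) ^ 24 * (n : ℝ) ^ 4 ≤ (ε / 46) ^ 20 * (n : ℝ) ^ 4 :=
    mul_le_mul_of_nonneg_right (pow_compare ε hε hε1) (by positivity)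
  linarith

/-- polynomial removal for every `2 × 2` pattern -/
theorem removal_two_by_two (H : Fin 2 → Fin 2 → Bool) :
    Removal H (fun ε => (ε / 128) ^ 24) :=
  removal_all _ removal_id removal_ones removal_eqRows removal_corner H

end Vale.Agent.Lib.P037
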