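import Mathlib

namespace Vale.Agent.Lib.P037

theorem arith_d (n k w m N d W : ℕ) (hW : W = 2 ^ 20 * k ^ 4) (hwW : w * W ≤ n)
    (hm : m ≤ 2 * W) (hN : W ^ 2 * N ≤ n ^ 4)
    (hd : d ^ 4 ≤ 32 * (n * m) ^ 2 * (n * w) * (w ^ 2 * n ^ 2 + N)) :
    8 * k * d ≤ n ^ 2 := by
  have hd' : d ^ 4 ≤ 32 * (n * (2 * W)) ^ 2 * (n * w) * (w ^ 2 * n ^ 2 + N) := by
    refine hd.trans ?_
    gcongr
  have key : 2 * (8 * k * d) ^ 4 ≤ 2 * (n ^ 2) ^ 4 := by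
    calc 2 * (8 * k * d) ^ 4 = 2 * 4096 * k ^ 4 * d ^ 4 := by ring
      _ ≤ 2 * 4096 * k ^ 4 * (32 * (n * (2 * W)) ^ 2 * (n * w) * (w ^ 2 * n ^ 2 + N)) := by
          gcongr
      _ = (2 ^ 20 * k ^ 4) * W ^ 2 * n ^ 3 * w * (w ^ 2 * n ^ 2 + N) := by ring
      _ = (w * W) ^ 3 * n ^ 5 + (w * W) * (n ^ 3 * (W ^ 2 * N)) := by
          rw [← hW]
          ring
      _ ≤ n ^ 3 * n ^ 5 + n * (n ^ 3 * n ^ 4) := by gcongr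
      _ = 2 * (n ^ 2) ^ 4 := by ring
  have h2 : (8 * k * d) ^ 4 ≤ (n ^ 2) ^ 4 := by omega
  exact (Nat.pow_le_pow_iff_left (by norm_num)).1 h2

theorem arith_n (n k N : ℕ) (hk : 1 ≤ k) (hN0 : 1 ≤ N) (hN : N * (2 ^ 116 * k ^ 24) < n ^ 4) :
    2 ^ 29 * k ^ 6 ≤ n := by
  by_contra hcon
  rw [not_le] at hcon
  have h1 : n ^ 4 < (2 ^ 29 * k ^ 6) ^ 4 := Nat.pow_lt_pow_left hcon (by norm_num)
  have h2 : (2 ^ 29 * k ^ 6) ^ 4 = 2 ^ 116 * k ^ 24 := by ring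
  have h3 : 2 ^ 116 * k ^ 24 ≤ N * (2 ^ 116 * k ^ 24) := Nat.le_mul_of_pos_left _ hN0
  omega

theorem arith_g (n k N g : ℕ) (hg : n < 2 * ((2 ^ 28 * k ^ 6) * g))
    (hN : N * (2 ^ 116 * k ^ 24) < n ^ 4) : N < g ^ 4 := by
  have h1 : n ^ 4 < (2 * ((2 ^ 28 * k ^ 6) * g)) ^ 4 := Nat.pow_lt_pow_left hg (by norm_num)
  have h2 : (2 * ((2 ^ 28 * k ^ 6) * g)) ^ 4 = g ^ 4 * (2 ^ 116 * k ^ 24) := by ring
  rw [h2] at h1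
  exact Nat.lt_of_mul_lt_mul_right (hN.trans h1)

theorem arith_W (n k N : ℕ) (hk : 1 ≤ k) (hN : N * (2 ^ 116 * k ^ 24) < n ^ 4) :
    (2 ^ 20 * k ^ 4) ^ 2 * N ≤ n ^ 4 := by
  have h1 : (2 ^ 20 * k ^ 4) ^ 2 * N ≤ N * (2 ^ 116 * k ^ 24) := by
    have h2 : (2 ^ 20 * k ^ 4) ^ 2 = 2 ^ 40 * k ^ 8 := by ring
    have h3 : 2 ^ 40 * k ^ 8 ≤ 2 ^ 116 * k ^ 24 := by
      have : k ^ 8 ≤ k ^ 24 := Nat.pow_le_pow_right hk (by norm_num)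
      have : (2:ℕ) ^ 40 ≤ 2 ^ 116 := by norm_num
      gcongr
    rw [h2, Nat.mul_comm]
    exact Nat.mul_le_mul_left _ h3
  omega

theorem div_facts (n D : ℕ) (hD : 0 < D) (hn : D ≤ n) :
    0 < n / D ∧ n / D * D ≤ n ∧ n < 2 * (D * (n / D)) := by
  have h1 : 0 < n / D := Nat.div_pos hn hD
  have h2 := Nat.div_add_mod n D
  have h3 := Nat.mod_lt n hD
  have h4 : n / D * D = D * (n / D) := Nat.mul_comm _ _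
  have h5 : D ≤ D * (n / D) := Nat.le_mul_of_pos_right _ h1
  refine ⟨h1, ?_, ?_⟩ <;> omega

end Vale.Agent.Lib.P037
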