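import Mathlib

namespace Vale.Agent.Lib.P037

open Finset

set_option linter.unusedSectionVars false

variable {α β : Type} [Fintype α] [Fintype β] [LinearOrder α] [LinearOrder β]

/-- number of entries where two 0/1 matrices differ, summed row by row -/
def diff (A B : α → β → Bool) : ℕ :=
  ∑ r, (univ.filter (fun c => A r c ≠ B r c)).card

/-- columns where row `u` has a one and row `v` has a zero -/
def dn (A : α → β → Bool) (u v : α) : Finset β :=
  univ.filter (fun c => A u c = true ∧ A v c = false)

/-- number of identity copies on the rows `u` (upper) and `v` (lower) -/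
def kap (A : α → β → Bool) (u v : α) : ℕ :=
  ((dn A u v ×ˢ dn A v u).filter (fun p => p.1 < p.2)).card

/-- number of ordered copies of the 2 x 2 identity pattern -/
def NI (A : α → β → Bool) : ℕ :=
  ∑ u, ∑ v, if u < v then kap A u v else 0

/-- transpose -/
def tr (A : α → β → Bool) : β → α → Bool := fun c r => A r c

/-- the set of identity copies as quadruples -/
def copySet (A : α → β → Bool) : Finset (α × α × β × β) :=
  univ.filter (fun x => x.1 < x.2.1 ∧ x.2.2.1 < x.2.2.2 ∧ A x.1 x.2.2.1 = true ∧
    A x.1 x.2.2.2 = false ∧ A x.2.1 x.2.2.1 = false ∧ A x.2.1 x.2.2.2 = true)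

theorem diff_self (A : α → β → Bool) : diff A A = 0 := by
  simp [diff]

theorem diff_comm (A B : α → β → Bool) : diff A B = diff B A := by
  unfold diff
  refine Finset.sum_congr rfl (fun r _ => ?_)
  congr 1
  ext c
  simp only [mem_filter, mem_univ, true_and]
  exact ne_comm

theorem diff_triangle (A B C : α → β → Bool) : diff A C ≤ diff A B + diff B C := by
  unfold diff
  rw [← Finset.sum_add_distrib]
  refine Finset.sum_le_sum (fun r _ => ?_)
  refine le_trans (Finset.card_le_card ?_) (Finset.card_union_le _ _)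
  intro c hc
  simp only [mem_filter, mem_univ, true_and, mem_union] at hc ⊢
  by_contra h
  rw [not_or, not_not, not_not] at h
  exact hc (h.1.trans h.2)

theorem diff_eq_card (A B : α → β → Bool) :
    diff A B = (univ.filter (fun p : α × β => A p.1 p.2 ≠ B p.1 p.2)).card := by
  unfold diff
  rw [Finset.card_filter, Fintype.sum_prod_type]
  refine Finset.sum_congr rfl (fun r _ => ?_)
  rw [Finset.card_filter]

theorem diff_tr (A B : α → β → Bool) : diff (tr A) (tr B) = diff A B := by
  rw [diff_eq_card, diff_eq_card]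
  refine Finset.card_bij (fun p _ => (p.2, p.1)) ?_ ?_ ?_
  · intro p hp
    rw [mem_filter] at hp ⊢
    exact ⟨mem_univ _, hp.2⟩
  · intro p _ q _ h
    simp only [Prod.mk.injEq] at h
    exact Prod.ext h.2 h.1
  · intro p hp
    refine ⟨(p.2, p.1), ?_, rfl⟩
    rw [mem_filter] at hp ⊢
    exact ⟨mem_univ _, hp.2⟩

theorem mem_dn (A : α → β → Bool) (u v : α) (c : β) :
    c ∈ dn A u v ↔ A u c = true ∧ A v c = false := by
  simp [dn]

theorem mem_copySet (A : α → β → Bool) (u v : α) (c1 c2 : β) :
    (u, v, c1, c2) ∈ copySet A ↔ u < v ∧ c1 < c2 ∧ A u c1 = true ∧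
    A u c2 = false ∧ A v c1 = false ∧ A v c2 = true := by
  simp [copySet]

theorem NI_eq_card (A : α → β → Bool) : NI A = (copySet A).card := by
  have h1 : (copySet A).card
      = ∑ q : α × α, ((copySet A).filter (fun x => (x.1, x.2.1) = q)).card :=
    Finset.card_eq_sum_card_fiberwise (f := fun x : α × α × β × β => (x.1, x.2.1))
      (fun x _ => Finset.mem_coe.2 (mem_univ _))
  rw [h1, Fintype.sum_prod_type]
  unfold NI
  refine Finset.sum_congr rfl (fun u _ => Finset.sum_congr rfl (fun v _ => ?_))
  split_ifs with huv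
  · unfold kap
    refine Finset.card_bij (fun p _ => (u, v, p.1, p.2)) ?_ ?_ ?_
    · intro p hp
      simp only [mem_filter, mem_product, mem_dn] at hp
      simp only [mem_filter, mem_copySet, and_true]
      tauto
    · intro p _ q _ h
      simp only [Prod.mk.injEq, true_and] at h
      exact Prod.ext h.1 h.2
    · rintro ⟨u', v', c1, c2⟩ hx
      simp only [mem_filter, mem_copySet, Prod.mk.injEq] at hx
      obtain ⟨hx1, rfl, rfl⟩ := hx
      refine ⟨(c1, c2), ?_, rfl⟩
      simp only [mem_filter, mem_product, mem_dn]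
      tauto
  · symm
    rw [Finset.card_eq_zero, Finset.filter_eq_empty_iff]
    rintro ⟨u', v', c1, c2⟩ hx hq
    simp only [Prod.mk.injEq] at hq
    rw [mem_copySet] at hx
    obtain ⟨rfl, rfl⟩ := hq
    exact huv hx.1

theorem NI_tr (A : α → β → Bool) : NI (tr A) = NI A := by
  rw [NI_eq_card, NI_eq_card]
  refine Finset.card_bij (fun x _ => (x.2.2.1, x.2.2.2, x.1, x.2.1)) ?_ ?_ ?_
  · rintro ⟨c1, c2, u, v⟩ hx
    rw [mem_copySet] at hx ⊢
    simp only [tr] at hx
    tauto
  · rintro ⟨c1, c2, u, v⟩ _ ⟨c1', c2', u', v'⟩ _ h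
    simp only [Prod.mk.injEq] at h ⊢
    tauto
  · rintro ⟨u, v, c1, c2⟩ hx
    refine ⟨(c1, c2, u, v), ?_, rfl⟩
    rw [mem_copySet] at hx ⊢
    simp only [tr]
    tauto

theorem tr_tr (A : α → β → Bool) : tr (tr A) = A := rfl

/-- no induced 2K2 on row pairs related by `P` and column pairs related by `Q` -/
def ChainOn (A : α → β → Bool) (P : α → α → Prop) (Q : β → β → Prop) : Prop :=
  ∀ r r' c c', P r r' → Q c c' →
    ¬ (A r c = true ∧ A r c' = false ∧ A r' c = false ∧ A r' c' = true)

theorem chainOn_tr (A : α → β → Bool) (P : α → α → Prop) (Q : β → β → Prop)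
    (h : ChainOn A P Q) : ChainOn (tr A) Q P := by
  intro c c' r r' hc hr hx
  simp only [tr] at hx
  exact h r r' c c' hr hc ⟨hx.1, hx.2.2.1, hx.2.1, hx.2.2.2⟩

end Vale.Agent.Lib.P037
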