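import Mathlib

namespace Vale.Agent.Lib.P037

/-- The number of ordered copies of the `k × k` pattern `H` in the `n × n` binary matrix `A`:
pairs of strictly increasing row and column selections `r, c : Fin k → Fin n` such that
`A (r i) (c j) = H i j` for all `i, j`. -/
def numCopies {k n : ℕ} (H : Fin k → Fin k → Bool) (A : Fin n → Fin n → Bool) : ℕ :=
  (Finset.univ.filter (fun p : (Fin k → Fin n) × (Fin k → Fin n) =>
    StrictMono p.1 ∧ StrictMono p.2 ∧ ∀ i j, A (p.1 i) (p.2 j) = H i j)).card

/-- The number of entries in which the `n × n` binary matrices `A` and `B` differ. -/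
def numDiff {n : ℕ} (A B : Fin n → Fin n → Bool) : ℕ :=
  (Finset.univ.filter (fun p : Fin n × Fin n => A p.1 p.2 ≠ B p.1 p.2)).card

/-- The `2 × 2` identity pattern: ones on the diagonal, zeros off the diagonal. -/
def idPattern : Fin 2 → Fin 2 → Bool := fun i j => decide (i = j)

end Vale.Agent.Lib.P037
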