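import Vale.Agent.Lib.P037.Main
import Vale.Agent.Lib.P037.Defs

namespace Vale.Agent.Lib.P037

open Finset

theorem numDiff_eq (n : ℕ) (A B : Fin n → Fin n → Bool) : numDiff A B = diff A B :=
  (diff_eq_card A B).symm

theorem numCopies_id (n : ℕ) (A : Fin n → Fin n → Bool) : numCopies idPattern A = NI A := by
  rw [NI_eq_card]
  unfold numCopies
  refine Finset.card_bij (fun p _ => (p.1 0, p.1 1, p.2 0, p.2 1)) ?_ ?_ ?_
  · rintro ⟨r, c⟩ hp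
    simp only [mem_filter, mem_univ, true_and] at hp
    obtain ⟨hr, hc, hA⟩ := hp
    rw [mem_copySet]
    refine ⟨hr (by decide), hc (by decide), ?_, ?_, ?_, ?_⟩
    · simpa [idPattern] using hA 0 0
    · simpa [idPattern] using hA 0 1
    · simpa [idPattern] using hA 1 0
    · simpa [idPattern] using hA 1 1
  · rintro ⟨r, c⟩ _ ⟨r', c'⟩ _ h
    simp only [Prod.mk.injEq] at h
    obtain ⟨h1, h2, h3, h4⟩ := h
    have hr : r = r' := by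
      funext i
      fin_cases i
      · exact h1
      · exact h2
    have hc : c = c' := by
      funext i
      fin_cases i
      · exact h3
      · exact h4
    rw [hr, hc]
  · rintro ⟨u, v, c1, c2⟩ hx
    rw [mem_copySet] at hx
    obtain ⟨huv, hc12, e1, e2, e3, e4⟩ := hx
    refine ⟨(![u, v], ![c1, c2]), ?_, rfl⟩
    simp only [mem_filter, mem_univ, true_and]
    refine ⟨?_, ?_, ?_⟩
    · intro i j hij
      fin_cases i <;> fin_cases j <;> simp_all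
    · intro i j hij
      fin_cases i <;> fin_cases j <;> simp_all
    · intro i j
      fin_cases i <;> fin_cases j <;> simp [idPattern, e1, e2, e3, e4]

theorem main_real (n : ℕ) (ε : ℝ) (A : Fin n → Fin n → Bool) (hε : 0 < ε) (hε1 : ε < 1)
    (hfar : ∀ B : Fin n → Fin n → Bool, NI B = 0 → ε * (n : ℝ) ^ 2 ≤ (diff A B : ℝ)) :
    (ε / 128) ^ 24 * (n : ℝ) ^ 4 ≤ (NI A : ℝ) := by
  by_contra hcon
  rw [not_le] at hcon
  have hNI : (0 : ℝ) ≤ NI A := Nat.cast_nonneg _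
  have hnpos : (0 : ℝ) < (n : ℝ) ^ 4 := by
    by_contra h
    have h' : (n : ℝ) ^ 4 ≤ 0 := not_lt.1 h
    have h0 : (n : ℝ) ^ 4 = 0 := le_antisymm h' (by positivity)
    rw [h0, mul_zero] at hcon
    linarith
  have hn : (0 : ℝ) < n := by
    by_contra h
    have h0 : (n : ℝ) = 0 := le_antisymm (not_lt.1 h) (Nat.cast_nonneg _)
    rw [h0] at hnpos
    norm_num at hnpos
  have hk1 : (2 / ε : ℝ) ≤ (⌈2 / ε⌉₊ : ℝ) := Nat.le_ceil _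
  have hk2 : ((⌈2 / ε⌉₊ : ℕ) : ℝ) < 2 / ε + 1 := Nat.ceil_lt_add_one (by positivity)
  have hk3 : ((⌈2 / ε⌉₊ : ℕ) : ℝ) ≤ 3 / ε := by
    have h1 : (1 : ℝ) ≤ 1 / ε := by
      rw [le_div_iff₀ hε]
      linarith
    have e : (3 : ℝ) / ε = 2 / ε + 1 / ε := by ring
    rw [e]
    linarith
  have hkε : 2 ≤ ((⌈2 / ε⌉₊ : ℕ) : ℝ) * ε := by
    have h := mul_le_mul_of_nonneg_right hk1 hε.le
    rwa [div_mul_cancel₀ _ hε.ne'] at h
  have hkpos : 1 ≤ ⌈2 / ε⌉₊ := by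
    by_contra h
    have h0 : ⌈2 / ε⌉₊ = 0 := by omega
    rw [h0] at hkε
    norm_num at hkε
  have hnat : NI A * (2 ^ 116 * ⌈2 / ε⌉₊ ^ 24) < n ^ 4 := by
    have hr : ((NI A * (2 ^ 116 * ⌈2 / ε⌉₊ ^ 24) : ℕ) : ℝ) < ((n ^ 4 : ℕ) : ℝ) := by
      have ec1 : ((NI A * (2 ^ 116 * ⌈2 / ε⌉₊ ^ 24) : ℕ) : ℝ)
          = (NI A : ℝ) * (2 ^ 116 * ((⌈2 / ε⌉₊ : ℕ) : ℝ) ^ 24) := by
        push_cast
        ring
      have ec2 : ((n ^ 4 : ℕ) : ℝ) = (n : ℝ) ^ 4 := by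
        push_cast
        ring
      rw [ec1, ec2]
      have h1 : ((⌈2 / ε⌉₊ : ℕ) : ℝ) ^ 24 ≤ (3 / ε) ^ 24 :=
        pow_le_pow_left₀ (Nat.cast_nonneg _) hk3 24
      have h2 : (ε / 128) ^ 24 * (3 / ε) ^ 24 = 3 ^ 24 / 2 ^ 168 := by
        rw [← mul_pow]
        have e : ε / 128 * (3 / ε) = 3 / 128 := by
          field_simp
        rw [e]
        norm_num
      calc (NI A : ℝ) * (2 ^ 116 * ((⌈2 / ε⌉₊ : ℕ) : ℝ) ^ 24)
          ≤ (NI A : ℝ) * (2 ^ 116 * (3 / ε) ^ 24) := by gcongr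
        _ ≤ ((ε / 128) ^ 24 * (n : ℝ) ^ 4) * (2 ^ 116 * (3 / ε) ^ 24) := by
            have hp : (0 : ℝ) ≤ 2 ^ 116 * (3 / ε) ^ 24 := by positivity
            exact mul_le_mul_of_nonneg_right hcon.le hp
        _ = (n : ℝ) ^ 4 * (2 ^ 116 * ((ε / 128) ^ 24 * (3 / ε) ^ 24)) := by ring
        _ = (n : ℝ) ^ 4 * (2 ^ 116 * (3 ^ 24 / 2 ^ 168)) := by rw [h2]
        _ < (n : ℝ) ^ 4 * 1 := by
            apply mul_lt_mul_of_pos_left _ hnpos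
            norm_num
        _ = (n : ℝ) ^ 4 := mul_one _
    exact_mod_cast hr
  obtain ⟨B, hB0, hBd⟩ := main_nat n ⌈2 / ε⌉₊ hkpos A hnat
  have h1 := hfar B hB0
  have h2 : ((⌈2 / ε⌉₊ : ℕ) : ℝ) * (diff A B : ℝ) ≤ (n : ℝ) ^ 2 := by exact_mod_cast hBd
  have h3 : ((⌈2 / ε⌉₊ : ℕ) : ℝ) * (ε * (n : ℝ) ^ 2) ≤ ((⌈2 / ε⌉₊ : ℕ) : ℝ) * (diff A B : ℝ) :=
    mul_le_mul_of_nonneg_left h1 (Nat.cast_nonneg _)
  have h4 : 2 * (n : ℝ) ^ 2 ≤ ((⌈2 / ε⌉₊ : ℕ) : ℝ) * ε * (n : ℝ) ^ 2 :=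
    mul_le_mul_of_nonneg_right hkε (by positivity)
  have h5 : ((⌈2 / ε⌉₊ : ℕ) : ℝ) * ε * (n : ℝ) ^ 2
      = ((⌈2 / ε⌉₊ : ℕ) : ℝ) * (ε * (n : ℝ) ^ 2) := by ring
  have h6 : (0 : ℝ) < (n : ℝ) ^ 2 := by positivity
  linarith

theorem identity_removal (n : ℕ) (ε : ℝ) (A : Fin n → Fin n → Bool) (hε : 0 < ε) (hε1 : ε < 1)
    (hfar : ∀ B : Fin n → Fin n → Bool, numCopies idPattern B = 0 →
      ε * (n : ℝ) ^ 2 ≤ (numDiff A B : ℝ)) :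
    (ε / 128) ^ 24 * (n : ℝ) ^ 4 ≤ (numCopies idPattern A : ℝ) := by
  rw [numCopies_id]
  apply main_real n ε A hε hε1
  intro B hB
  have h := hfar B (by rw [numCopies_id]; exact hB)
  rw [numDiff_eq] at h
  exact h

end Vale.Agent.Lib.P037
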