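import Vale.Agent.Lib.P037.Pipe
import Vale.Agent.Lib.P037.Arith

namespace Vale.Agent.Lib.P037

open Finset

theorem main_nat (n k : ℕ) (hk : 1 ≤ k) (A : Fin n → Fin n → Bool)
    (hN : NI A * (2 ^ 116 * k ^ 24) < n ^ 4) :
    ∃ B : Fin n → Fin n → Bool, NI B = 0 ∧ k * diff A B ≤ n ^ 2 := by
  by_cases h0 : NI A = 0
  · exact ⟨A, h0, by rw [diff_self]; simp⟩
  have hN0 : 1 ≤ NI A := Nat.one_le_iff_ne_zero.2 h0
  have hn := arith_n n k (NI A) hk hN0 hN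
  have hk4 : 1 ≤ k ^ 4 := Nat.one_le_pow _ _ hk
  have hk5 : k ≤ k ^ 6 := Nat.le_self_pow (by norm_num) k
  have hk46 : k ^ 4 ≤ k ^ 6 := Nat.pow_le_pow_right hk (by norm_num)
  have hWpos : 0 < 2 ^ 20 * k ^ 4 := by positivity
  have hGpos : 0 < 2 ^ 28 * k ^ 6 := by positivity
  have hWn : 2 ^ 20 * k ^ 4 ≤ n := by omega
  have h8k : 8 * k ≤ n := by omega
  have hGn : 2 ^ 28 * k ^ 6 ≤ n := by omega
  obtain ⟨hw, hwW, hnw⟩ := div_facts n (2 ^ 20 * k ^ 4) hWpos hWn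
  obtain ⟨hq, hq8, hnq⟩ := div_facts n (8 * k) (by omega) h8k
  obtain ⟨hg, hgG, hng⟩ := div_facts n (2 ^ 28 * k ^ 6) hGpos hGn
  obtain ⟨B, d1, d2, hB, hd1, hd2, hdiff⟩ :=
    pipeline n A (n / (2 ^ 20 * k ^ 4)) (n / (8 * k)) (n / (2 ^ 28 * k ^ 6)) hw hq
  have hm : n / (n / (2 ^ 20 * k ^ 4)) + 1 ≤ 2 * (2 ^ 20 * k ^ 4) := by
    have h1 : n / (n / (2 ^ 20 * k ^ 4)) < 2 * (2 ^ 20 * k ^ 4) := by
      rw [Nat.div_lt_iff_lt_mul hw]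
      calc n < 2 * (2 ^ 20 * k ^ 4 * (n / (2 ^ 20 * k ^ 4))) := hnw
        _ = 2 * (2 ^ 20 * k ^ 4) * (n / (2 ^ 20 * k ^ 4)) := by ring
    omega
  have hq16 : n / (n / (8 * k)) + 1 ≤ 16 * k := by
    have h1 : n / (n / (8 * k)) < 16 * k := by
      rw [Nat.div_lt_iff_lt_mul hq]
      calc n < 2 * (8 * k * (n / (8 * k))) := hnq
        _ = 16 * k * (n / (8 * k)) := by ring
    omega
  have hW2 := arith_W n k (NI A) hk hN
  have e1 : 8 * k * d1 ≤ n ^ 2 :=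
    arith_d n k (n / (2 ^ 20 * k ^ 4)) (n / (n / (2 ^ 20 * k ^ 4)) + 1) (NI A) d1
      (2 ^ 20 * k ^ 4) rfl hwW hm hW2 hd1
  have e2 : 8 * k * d2 ≤ n ^ 2 :=
    arith_d n k (n / (2 ^ 20 * k ^ 4)) (n / (n / (2 ^ 20 * k ^ 4)) + 1) (NI A) d2
      (2 ^ 20 * k ^ 4) rfl hwW hm hW2 hd2
  have e3 : 8 * k * ((n / (n / (2 ^ 20 * k ^ 4)) + 1) * (n / (n / (8 * k)) + 1) *
      (n / (2 ^ 28 * k ^ 6)) * n) ≤ n ^ 2 := by
    calc 8 * k * ((n / (n / (2 ^ 20 * k ^ 4)) + 1) * (n / (n / (8 * k)) + 1) *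
          (n / (2 ^ 28 * k ^ 6)) * n)
        ≤ 8 * k * ((2 * (2 ^ 20 * k ^ 4)) * (16 * k) * (n / (2 ^ 28 * k ^ 6)) * n) := by
          gcongr
      _ = (n / (2 ^ 28 * k ^ 6) * (2 ^ 28 * k ^ 6)) * n := by ring
      _ ≤ n * n := Nat.mul_le_mul_right _ hgG
      _ = n ^ 2 := by ring
  have e4 : 8 * k * (n * (n / (8 * k))) ≤ n ^ 2 := by
    calc 8 * k * (n * (n / (8 * k))) = n * (n / (8 * k) * (8 * k)) := by ring
      _ ≤ n * n := Nat.mul_le_mul_left _ hq8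
      _ = n ^ 2 := by ring
  refine ⟨B, ?_, ?_⟩
  · by_contra hne
    have h1 := hB hne
    have h2 := arith_g n k (NI A) (n / (2 ^ 28 * k ^ 6)) hng hN
    omega
  · have h8 : 8 * (k * diff A B) ≤ 8 * n ^ 2 := by
      calc 8 * (k * diff A B)
          ≤ 8 * (k * (d1 + d2 + 2 * ((n / (n / (2 ^ 20 * k ^ 4)) + 1) *
              (n / (n / (8 * k)) + 1) * (n / (2 ^ 28 * k ^ 6)) * n + n * (n / (8 * k))))) := by
            gcongr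
        _ = 8 * k * d1 + 8 * k * d2 + 2 * (8 * k * ((n / (n / (2 ^ 20 * k ^ 4)) + 1) *
              (n / (n / (8 * k)) + 1) * (n / (2 ^ 28 * k ^ 6)) * n)) +
              2 * (8 * k * (n * (n / (8 * k)))) := by ring
        _ ≤ n ^ 2 + n ^ 2 + 2 * n ^ 2 + 2 * n ^ 2 := by gcongr
        _ ≤ 8 * n ^ 2 := by omega
    omega

end Vale.Agent.Lib.P037
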