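import Vale.Agent.Lib.P037.Rep

namespace Vale.Agent.Lib.P037

open Finset

set_option linter.unusedSectionVars false
set_option linter.unusedSimpArgs false

variable {α β : Type} [Fintype α] [Fintype β] [LinearOrder α] [LinearOrder β]

/-- number of ones in row `r` -/
def rdeg (M : α → β → Bool) (r : α) : ℕ := (univ.filter (fun c => M r c = true)).card

/-- keep only the rows marked by `big` -/
def zeroR (M : α → β → Bool) (big : α → Bool) : α → β → Bool := fun r c => M r c && big r

/-- a row is big when its part has at least `g` rows -/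
def bigp {γ : Type} [DecidableEq γ] (p : α → γ) (g : ℕ) (r : α) : Bool :=
  decide (g ≤ (univ.filter (fun r' => p r' = p r)).card)

theorem kap_eq_zero_of_chain (M : α → β → Bool) (s : α → ℕ)
    (hch : ChainOn M (fun r r' => s r = s r') (fun _ _ => True)) (u v : α) (h : s u = s v) :
    kap M u v = 0 := by
  unfold kap
  rw [Finset.card_eq_zero, Finset.filter_eq_empty_iff]
  intro p hp _
  simp only [mem_product, mem_dn] at hp
  exact hch u v p.1 p.2 h trivial ⟨hp.1.1, hp.2.2, hp.1.2, hp.2.1⟩

theorem rep_matrix {γ : Type} [DecidableEq γ] (M : α → β → Bool) (s : α → ℕ) (hs : Monotone s)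
    (p : α → γ) (hps : ∀ r r', p r = p r' → s r = s r')
    (hch : ChainOn M (fun r r' => s r = s r') (fun _ _ => True)) :
    ∃ ψ : α → α, (∀ r, p (ψ r) = p r) ∧ (∀ r r', p r = p r' → ψ r = ψ r') ∧
      NI (fun r c => M (ψ r) c) ≤ NI M := by
  have key : ∀ ψ : α → α, (∀ r, p (ψ r) = p r) → NI (fun r c => M (ψ r) c)
      = ∑ u, ∑ v, (fun x y => if s x < s y then kap M x y else 0) (ψ u) (ψ v) := by
    intro ψ hψ
    unfold NI
    refine Finset.sum_congr rfl (fun u _ => Finset.sum_congr rfl (fun v _ => ?_))
    have hsu : s (ψ u) = s u := hps _ _ (hψ u)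
    have hsv : s (ψ v) = s v := hps _ _ (hψ v)
    have hk : kap (fun r c => M (ψ r) c) u v = kap M (ψ u) (ψ v) := rfl
    simp only [hk, hsu, hsv]
    by_cases h : s u = s v
    · have h0 : kap M (ψ u) (ψ v) = 0 :=
        kap_eq_zero_of_chain M s hch _ _ (by rw [hsu, hsv, h])
      simp [h0]
    · by_cases huv : u < v
      · have h' : s u < s v := lt_of_le_of_ne (hs huv.le) h
        simp [huv, h']
      · have h' : ¬ s u < s v := by
          intro h''
          have : s v ≤ s u := hs (not_lt.1 huv)
          omega
        simp [huv, h']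
  obtain ⟨ψ, h1, h2, h3⟩ := rep_exists (fun x y => if s x < s y then kap M x y else 0) p
    (by
      intro u v huv
      have : s u = s v := hps _ _ huv
      simp [this]) (univ.image p)
  refine ⟨ψ, h1, fun r r' h => h2 r r' h (Finset.mem_image_of_mem p (mem_univ r)), ?_⟩
  rw [key ψ h1]
  have hid : NI M = ∑ u, ∑ v, (fun x y => if s x < s y then kap M x y else 0) u v :=
    key id (fun _ => rfl)
  rw [hid]
  exact h3

theorem nested_of_chain (M : α → β → Bool) (s : α → ℕ)
    (hch : ChainOn M (fun r r' => s r = s r') (fun _ _ => True)) (r r' : α) (h : s r = s r') :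
    (∀ c, M r c = true → M r' c = true) ∨ (∀ c, M r' c = true → M r c = true) := by
  by_contra hcon
  rw [not_or] at hcon
  obtain ⟨h1, h2⟩ := hcon
  simp only [not_forall] at h1 h2
  obtain ⟨c, hc, hc'⟩ := h1
  obtain ⟨c', hc2, hc2'⟩ := h2
  exact hch r r' c c' h trivial ⟨hc, by simpa using hc2', by simpa using hc', hc2⟩

theorem card_ne_of_sub (x y : β → Bool) (h : ∀ c, x c = true → y c = true) :
    (univ.filter (fun c => x c ≠ y c)).card + (univ.filter (fun c => x c = true)).card
      = (univ.filter (fun c => y c = true)).card := by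
  have h1 : (univ.filter (fun c => x c ≠ y c))
      = (univ.filter (fun c => y c = true)) \ (univ.filter (fun c => x c = true)) := by
    ext c
    simp only [mem_filter, mem_sdiff, mem_univ, true_and]
    constructor
    · intro hne
      cases hx : x c
      · cases hy : y c
        · rw [hx, hy] at hne
          exact absurd rfl hne
        · simp
      · have := h c hx
        rw [hx, this] at hne
        exact absurd rfl hne
    · rintro ⟨hy, hx⟩ heq
      rw [heq] at hx
      exact hx hy
  rw [h1, Finset.card_sdiff_of_subset, Nat.sub_add_cancel]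
  · apply Finset.card_le_card
    intro c hc
    simp only [mem_filter, mem_univ, true_and] at hc ⊢
    exact h c hc
  · intro c hc
    simp only [mem_filter, mem_univ, true_and] at hc ⊢
    exact h c hc

theorem card_ne_comm (x y : β → Bool) :
    (univ.filter (fun c => x c ≠ y c)).card = (univ.filter (fun c => y c ≠ x c)).card := by
  congr 1
  ext c
  simp only [mem_filter, mem_univ, true_and]
  exact ne_comm

theorem card_ne_le_of_nested (x y : β → Bool) (q : ℕ)
    (h : (∀ c, x c = true → y c = true) ∨ (∀ c, y c = true → x c = true))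
    (h1 : (univ.filter (fun c => x c = true)).card ≤ (univ.filter (fun c => y c = true)).card + q)
    (h2 : (univ.filter (fun c => y c = true)).card ≤ (univ.filter (fun c => x c = true)).card + q) :
    (univ.filter (fun c => x c ≠ y c)).card ≤ q := by
  rcases h with h | h
  · have := card_ne_of_sub x y h
    omega
  · have := card_ne_of_sub y x h
    rw [card_ne_comm]
    omega

theorem NI_zeroR_le (M : α → β → Bool) (big : α → Bool) : NI (zeroR M big) ≤ NI M := by
  unfold NI
  refine Finset.sum_le_sum (fun u _ => Finset.sum_le_sum (fun v _ => ?_))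
  split_ifs
  · unfold kap
    apply Finset.card_le_card
    intro p hp
    simp only [mem_filter, mem_product, mem_dn, zeroR, Bool.and_eq_true,
      Bool.and_eq_false_iff] at hp ⊢
    obtain ⟨⟨⟨⟨h1, h2⟩, h3⟩, ⟨h4, h5⟩, h6⟩, h7⟩ := hp
    refine ⟨⟨⟨h1, ?_⟩, h4, ?_⟩, h7⟩
    · rcases h3 with h | h
      · exact h
      · rw [h5] at h
        exact absurd h (by simp)
    · rcases h6 with h | h
      · exact h
      · rw [h2] at h
        exact absurd h (by simp)
  · exact le_rfl

theorem zeroR_chain (M : α → β → Bool) (big : α → Bool) (P : α → α → Prop) (Q : β → β → Prop)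
    (h : ChainOn M P Q) : ChainOn (zeroR M big) P Q := by
  intro r r' c c' hP hQ hx
  simp only [zeroR, Bool.and_eq_true, Bool.and_eq_false_iff] at hx
  obtain ⟨⟨h1, h2⟩, h3, h4, h5, h6⟩ := hx
  refine h r r' c c' hP hQ ⟨h1, ?_, ?_, h5⟩
  · rcases h3 with h | h
    · exact h
    · rw [h2] at h
      exact absurd h (by simp)
  · rcases h4 with h | h
    · exact h
    · rw [h6] at h
      exact absurd h (by simp)

theorem diff_zeroR_le (M : α → β → Bool) (big : α → Bool) :
    diff M (zeroR M big) ≤ (univ.filter (fun r => big r = false)).card * Fintype.card β := by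
  unfold diff
  rw [← Finset.sum_filter_add_sum_filter_not univ (fun r => big r = false)]
  have h1 : ∑ r ∈ univ.filter (fun r => ¬ big r = false),
      (univ.filter (fun c => M r c ≠ zeroR M big r c)).card = 0 := by
    apply Finset.sum_eq_zero
    intro r hr
    simp only [mem_filter, mem_univ, true_and, Bool.not_eq_false] at hr
    rw [Finset.card_eq_zero, Finset.filter_eq_empty_iff]
    intro c _
    simp [zeroR, hr]
  rw [h1, add_zero]
  calc ∑ r ∈ univ.filter (fun r => big r = false),
        (univ.filter (fun c => M r c ≠ zeroR M big r c)).card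
      ≤ ∑ _r ∈ univ.filter (fun r => big r = false), Fintype.card β :=
        Finset.sum_le_sum (fun r _ => Finset.card_le_univ _)
    _ = _ := by rw [Finset.sum_const, smul_eq_mul]

theorem card_small_le {γ : Type} [DecidableEq γ] (p : α → γ) (g : ℕ) :
    (univ.filter (fun r => bigp p g r = false)).card ≤ (univ.image p).card * g := by
  rw [Finset.card_eq_sum_card_fiberwise (f := p) (t := univ.image p)
    (fun r _ => Finset.mem_coe.2 (Finset.mem_image_of_mem p (mem_univ r)))]
  calc ∑ P ∈ univ.image p, ((univ.filter (fun r => bigp p g r = false)).filter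
        (fun r => p r = P)).card ≤ ∑ _P ∈ univ.image p, g := by
        refine Finset.sum_le_sum (fun P _ => ?_)
        by_cases hne : ((univ.filter (fun r => bigp p g r = false)).filter
            (fun r => p r = P)).Nonempty
        · obtain ⟨r, hr⟩ := hne
          simp only [mem_filter, mem_univ, true_and, bigp, decide_eq_false_iff_not, not_le] at hr
          refine le_trans (Finset.card_le_card ?_) hr.1.le
          intro r' hr'
          simp only [mem_filter, mem_univ, true_and] at hr' ⊢
          rw [hr'.2, hr.2]
        · rw [Finset.not_nonempty_iff_eq_empty] at hne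
          rw [hne]
          simp
    _ = _ := by rw [Finset.sum_const, smul_eq_mul]

end Vale.Agent.Lib.P037
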