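import Vale.Agent.Lib.P037.Merge

namespace Vale.Agent.Lib.P037

open Finset

set_option linter.unusedSectionVars false
set_option linter.unusedSimpArgs false

variable {α β : Type} [Fintype α] [Fintype β] [LinearOrder α] [LinearOrder β]

theorem card_image_part_le (M : α → β → Bool) (s : α → ℕ) (m q : ℕ) (hm : ∀ r, s r < m) :
    (univ.image (fun r => (s r, rdeg M r / q))).card ≤ m * (Fintype.card β / q + 1) := by
  have h1 : univ.image (fun r => (s r, rdeg M r / q))
      ⊆ range m ×ˢ range (Fintype.card β / q + 1) := by
    intro x hx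
    rw [Finset.mem_image] at hx
    obtain ⟨r, _, rfl⟩ := hx
    rw [Finset.mem_product, mem_range, mem_range]
    refine ⟨hm r, ?_⟩
    have h2 : rdeg M r ≤ Fintype.card β := Finset.card_le_univ _
    have h3 : rdeg M r / q ≤ Fintype.card β / q := Nat.div_le_div_right h2
    omega
  refine le_trans (Finset.card_le_card h1) ?_
  rw [Finset.card_product, Finset.card_range, Finset.card_range]

theorem div_eq_bound (a b q : ℕ) (hq : 0 < q) (h : a / q = b / q) : a ≤ b + q := by
  have h1 := Nat.div_add_mod a q
  have h2 := Nat.div_add_mod b q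
  have h3 := Nat.mod_lt a hq
  have h4 := Nat.mod_lt b hq
  rw [h] at h1
  omega

theorem merge_rows (M : α → β → Bool) (s : α → ℕ) (m q g : ℕ) (hq : 0 < q) (hs : Monotone s)
    (hm : ∀ r, s r < m) (hch : ChainOn M (fun r r' => s r = s r') (fun _ _ => True)) :
    ∃ (M' : α → β → Bool) (pt : α → ℕ × ℕ),
      (∀ r r', pt r = pt r' → s r = s r') ∧
      (∀ r r', pt r = pt r' → M' r = M' r') ∧
      (∀ r c, M' r c = true → g ≤ (univ.filter (fun r' => pt r' = pt r)).card) ∧
      NI M' ≤ NI M ∧
      diff M M' ≤ m * (Fintype.card β / q + 1) * g * Fintype.card β + Fintype.card α * q ∧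
      (∀ Q : β → β → Prop, ChainOn M (fun _ _ => True) Q → ChainOn M' (fun _ _ => True) Q) ∧
      ChainOn M' (fun r r' => s r = s r') (fun _ _ => True) ∧
      (∀ c c', (∀ r, M r c = M r c') → ∀ r, M' r c = M' r c') ∧
      (∀ r c, M' r c = true → ∃ r', M r' c = true) := by
  have hpt : ∀ r r' : α, (s r, rdeg M r / q) = (s r', rdeg M r' / q) → s r = s r' :=
    fun r r' h => congrArg Prod.fst h
  have hch1 : ChainOn (zeroR M (bigp (fun r => (s r, rdeg M r / q)) g))
      (fun r r' => s r = s r') (fun _ _ => True) := zeroR_chain M _ _ _ hch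
  obtain ⟨ψ, h1, h2, h3⟩ := rep_matrix (zeroR M (bigp (fun r => (s r, rdeg M r / q)) g)) s hs
    (fun r => (s r, rdeg M r / q)) hpt hch1
  have hbig : ∀ r, bigp (fun r => (s r, rdeg M r / q)) g (ψ r)
      = bigp (fun r => (s r, rdeg M r / q)) g r := by
    intro r
    unfold bigp
    simp only [h1 r]
  refine ⟨fun r c => zeroR M (bigp (fun r => (s r, rdeg M r / q)) g) (ψ r) c,
    fun r => (s r, rdeg M r / q), hpt, ?_, ?_, ?_, ?_, ?_, ?_, ?_, ?_⟩
  · intro r r' h
    funext c
    show zeroR M _ (ψ r) c = zeroR M _ (ψ r') c
    rw [h2 r r' h]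
  · intro r c hrc
    simp only [zeroR, Bool.and_eq_true] at hrc
    have h4 := hrc.2
    rw [hbig r] at h4
    simpa [bigp] using h4
  · exact h3.trans (NI_zeroR_le M _)
  · refine (diff_triangle M (zeroR M (bigp (fun r => (s r, rdeg M r / q)) g)) _).trans ?_
    refine Nat.add_le_add ?_ ?_
    · refine (diff_zeroR_le M _).trans (Nat.mul_le_mul_right _ ?_)
      refine (card_small_le (fun r => (s r, rdeg M r / q)) g).trans (Nat.mul_le_mul_right _ ?_)
      exact card_image_part_le M s m q hm
    · unfold diff
      calc ∑ r, (univ.filter (fun c => zeroR M (bigp (fun r => (s r, rdeg M r / q)) g) r c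
              ≠ zeroR M (bigp (fun r => (s r, rdeg M r / q)) g) (ψ r) c)).card
          ≤ ∑ _r : α, q := by
            refine Finset.sum_le_sum (fun r _ => ?_)
            have hp := h1 r
            have hsr : s (ψ r) = s r := congrArg Prod.fst hp
            have hdr : rdeg M (ψ r) / q = rdeg M r / q := congrArg Prod.snd hp
            cases hb : bigp (fun r => (s r, rdeg M r / q)) g r
            · have hb' := hbig r
              rw [hb] at hb'
              have : (univ.filter (fun c => zeroR M (bigp (fun r => (s r, rdeg M r / q)) g) r c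
                  ≠ zeroR M (bigp (fun r => (s r, rdeg M r / q)) g) (ψ r) c)) = ∅ := by
                rw [Finset.filter_eq_empty_iff]
                intro c _
                simp [zeroR, hb, hb']
              rw [this]
              simp
            · have hb' := hbig r
              rw [hb] at hb'
              have hset : (univ.filter (fun c => zeroR M (bigp (fun r => (s r, rdeg M r / q)) g) r c
                  ≠ zeroR M (bigp (fun r => (s r, rdeg M r / q)) g) (ψ r) c))
                  = (univ.filter (fun c => M r c ≠ M (ψ r) c)) := by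
                ext c
                simp [zeroR, hb, hb']
              rw [hset]
              apply card_ne_le_of_nested (M r) (M (ψ r)) q
                (nested_of_chain M s hch r (ψ r) hsr.symm)
              · exact div_eq_bound _ _ q hq hdr.symm
              · exact div_eq_bound _ _ q hq hdr
        _ = Fintype.card α * q := by rw [Finset.sum_const, Finset.card_univ, smul_eq_mul]
  · intro Q hQ r r' c c' _ hc hx
    exact zeroR_chain M _ _ Q hQ (ψ r) (ψ r') c c' trivial hc hx
  · intro r r' c c' hrr' _ hx
    have hsr : s (ψ r) = s r := congrArg Prod.fst (h1 r)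
    have hsr' : s (ψ r') = s r' := congrArg Prod.fst (h1 r')
    exact hch1 (ψ r) (ψ r') c c' (show s (ψ r) = s (ψ r') by rw [hsr, hsr', hrr']) trivial hx
  · intro c c' hcc' r
    simp only [zeroR]
    rw [hcc' (ψ r)]
  · intro r c hrc
    simp only [zeroR, Bool.and_eq_true] at hrc
    exact ⟨ψ r, hrc.1⟩

end Vale.Agent.Lib.P037
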