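import Vale.Agent.Lib.P037.StripE
import Vale.Agent.Lib.P037.Merge2

namespace Vale.Agent.Lib.P037

open Finset

set_option linter.unusedSectionVars false
set_option linter.unusedSimpArgs false

theorem blowup_count {α β : Type} [Fintype α] [Fintype β] [LinearOrder α] [LinearOrder β]
    (B : α → β → Bool) (s : α → ℕ) (t : β → ℕ) (hs : Monotone s) (ht : Monotone t)
    (pr : α → ℕ × ℕ) (pc : β → ℕ × ℕ) (g : ℕ)
    (h1 : ∀ r r', pr r = pr r' → s r = s r') (h2 : ∀ c c', pc c = pc c' → t c = t c')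
    (h3 : ∀ r r', pr r = pr r' → B r = B r')
    (h4 : ∀ c c', pc c = pc c' → ∀ r, B r c = B r c')
    (h5 : ∀ r c, B r c = true → g ≤ (univ.filter (fun r' => pr r' = pr r)).card)
    (h6 : ∀ r c, B r c = true → g ≤ (univ.filter (fun c' => pc c' = pc c)).card)
    (hR : ChainOn B (fun r r' => s r = s r') (fun _ _ => True))
    (hC : ChainOn B (fun _ _ => True) (fun c c' => t c = t c'))
    (hne : NI B ≠ 0) : g ^ 4 ≤ NI B := by
  rw [NI_eq_card] at hne ⊢
  obtain ⟨⟨u, v, c1, c2⟩, hx⟩ := Finset.card_pos.1 (Nat.pos_of_ne_zero hne)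
  rw [mem_copySet] at hx
  obtain ⟨huv, hc12, e1, e2, e3, e4⟩ := hx
  have hsuv : s u < s v := by
    refine lt_of_le_of_ne (hs huv.le) ?_
    intro h
    exact hR u v c1 c2 h trivial ⟨e1, e2, e3, e4⟩
  have htc : t c1 < t c2 := by
    refine lt_of_le_of_ne (ht hc12.le) ?_
    intro h
    exact hC u v c1 c2 trivial h ⟨e1, e2, e3, e4⟩
  have hsub : (univ.filter (fun r' => pr r' = pr u)) ×ˢ ((univ.filter (fun r' => pr r' = pr v)) ×ˢ
      ((univ.filter (fun c' => pc c' = pc c1)) ×ˢ (univ.filter (fun c' => pc c' = pc c2))))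
      ⊆ copySet B := by
    rintro ⟨u', v', c1', c2'⟩ hmem
    simp only [mem_product, mem_filter, mem_univ, true_and] at hmem
    obtain ⟨hu', hv', hc1', hc2'⟩ := hmem
    rw [mem_copySet]
    have hsu' : s u' = s u := h1 _ _ hu'
    have hsv' : s v' = s v := h1 _ _ hv'
    have htc1' : t c1' = t c1 := h2 _ _ hc1'
    have htc2' : t c2' = t c2 := h2 _ _ hc2'
    refine ⟨?_, ?_, ?_, ?_, ?_, ?_⟩
    · by_contra hcon
      have : s v' ≤ s u' := hs (not_lt.1 hcon)
      omega
    · by_contra hcon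
      have : t c2' ≤ t c1' := ht (not_lt.1 hcon)
      omega
    · rw [h3 _ _ hu', h4 _ _ hc1']
      exact e1
    · rw [h3 _ _ hu', h4 _ _ hc2']
      exact e2
    · rw [h3 _ _ hv', h4 _ _ hc1']
      exact e3
    · rw [h3 _ _ hv', h4 _ _ hc2']
      exact e4
  refine le_trans ?_ (Finset.card_le_card hsub)
  rw [Finset.card_product, Finset.card_product, Finset.card_product]
  have g1 := h5 u c1 e1
  have g2 := h5 v c2 e4
  have g3 := h6 u c1 e1
  have g4 := h6 v c2 e4
  calc g ^ 4 = g * (g * (g * g)) := by ring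
    _ ≤ _ := Nat.mul_le_mul g1 (Nat.mul_le_mul g2 (Nat.mul_le_mul g3 g4))

/-- strip index of a row or column: blocks of `w` consecutive indices -/
def stp (n w : ℕ) : Fin n → ℕ := fun i => i.val / w

theorem stp_mono (n w : ℕ) : Monotone (stp n w) := by
  intro i j hij
  exact Nat.div_le_div_right hij

theorem stp_lt (n w : ℕ) (i : Fin n) : stp n w i < n / w + 1 := by
  have : i.val / w ≤ n / w := Nat.div_le_div_right i.isLt.le
  unfold stp
  omega

theorem strip_stp_card (n w : ℕ) (hw : 0 < w) (τ : ℕ) : (strip (stp n w) τ).card ≤ w := by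
  have h1 : (strip (stp n w) τ).card ≤ (Finset.Ico (w * τ) (w * τ + w)).card := by
    apply Finset.card_le_card_of_injOn (fun i : Fin n => i.val)
    · intro i hi
      have hi' : i.val / w = τ := (Finset.mem_filter.1 (Finset.mem_coe.1 hi)).2
      have e1 := Nat.div_add_mod i.val w
      have e2 := Nat.mod_lt i.val hw
      rw [hi'] at e1
      simp only [Finset.coe_Ico, Set.mem_Ico]
      omega
    · intro i _ j _ hij
      exact Fin.ext hij
  rw [Nat.card_Ico] at h1
  omega

theorem pipeline (n : ℕ) (A : Fin n → Fin n → Bool) (w q g : ℕ) (hw : 0 < w) (hq : 0 < q) :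
    ∃ (B : Fin n → Fin n → Bool) (d1 d2 : ℕ), (NI B ≠ 0 → g ^ 4 ≤ NI A) ∧
      d1 ^ 4 ≤ 32 * (n * (n / w + 1)) ^ 2 * (n * w) * (w ^ 2 * n ^ 2 + NI A) ∧
      d2 ^ 4 ≤ 32 * (n * (n / w + 1)) ^ 2 * (n * w) * (w ^ 2 * n ^ 2 + NI A) ∧
      diff A B ≤ d1 + d2 + 2 * ((n / w + 1) * (n / q + 1) * g * n + n * q) := by
  have hcard : Fintype.card (Fin n) = n := Fintype.card_fin n
  have hmono := stp_mono n w
  have hlt := stp_lt n w
  have hstrip := strip_stp_card n w hw
  -- step 1 : column strips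
  have hd1 := fixC_diff_le A (stp n w) (n / w + 1) w hlt hstrip hmono
  have hN1 := NI_fixC_le A (stp n w) (n / w + 1) hlt hmono
  have hC1 := fixC_chain A (stp n w)
  rw [hcard] at hd1
  -- step 2 : row strips
  have hd2 := fixC_diff_le (tr (fixC A (stp n w))) (stp n w) (n / w + 1) w hlt hstrip hmono
  have hN2 := NI_fixC_le (tr (fixC A (stp n w))) (stp n w) (n / w + 1) hlt hmono
  rw [hcard, NI_tr] at hd2
  rw [NI_tr] at hN2
  have hR2 : ChainOn (tr (fixC (tr (fixC A (stp n w))) (stp n w)))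
      (fun r r' => stp n w r = stp n w r') (fun _ _ => True) :=
    chainOn_tr _ _ _ (fixC_chain (tr (fixC A (stp n w))) (stp n w))
  have hC2 : ChainOn (tr (fixC (tr (fixC A (stp n w))) (stp n w)))
      (fun _ _ => True) (fun c c' => stp n w c = stp n w c') :=
    chainOn_tr _ _ _ (fixC_chain_rows (tr (fixC A (stp n w))) (stp n w) _
      (chainOn_tr _ _ _ hC1))
  have hdiff2 : diff (fixC A (stp n w)) (tr (fixC (tr (fixC A (stp n w))) (stp n w)))
      = diff (tr (fixC A (stp n w))) (fixC (tr (fixC A (stp n w))) (stp n w)) :=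
    (diff_tr (tr (fixC A (stp n w))) (fixC (tr (fixC A (stp n w))) (stp n w)))
  have hNA2 : NI (tr (fixC (tr (fixC A (stp n w))) (stp n w))) ≤ NI A := by
    rw [NI_tr]
    exact hN2.trans hN1
  -- step 3 : merge rows
  obtain ⟨B2, pr, r1, r2, r3, r4, r5, r6, r7, r8, r9⟩ :=
    merge_rows (tr (fixC (tr (fixC A (stp n w))) (stp n w))) (stp n w) (n / w + 1) q g hq
      hmono hlt hR2
  rw [hcard] at r5
  have hC3 := r6 _ hC2
  -- step 4 : merge columns
  obtain ⟨M', pc, c1, c2, c3, c4, c5, c6, c7, c8, c9⟩ :=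
    merge_rows (tr B2) (stp n w) (n / w + 1) q g hq hmono hlt (chainOn_tr _ _ _ hC3)
  rw [hcard] at c5
  rw [NI_tr] at c4
  have hdiff4 : diff B2 (tr M') = diff (tr B2) M' := diff_tr (tr B2) M'
  refine ⟨tr M', diff A (fixC A (stp n w)),
    diff (tr (fixC A (stp n w))) (fixC (tr (fixC A (stp n w))) (stp n w)), ?_, hd1, ?_, ?_⟩
  · intro hne
    have hcount := blowup_count (tr M') (stp n w) (stp n w) hmono hmono pr pc g r1 c1
      (by
        intro r r' hrr'
        funext x
        exact c8 r r' (fun y => congrFun (r2 r r' hrr') y) x)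
      (by
        intro c c' hcc' r
        exact congrFun (c2 c c' hcc') r)
      (by
        intro r c hrc
        obtain ⟨x, hx⟩ := c9 c r hrc
        exact r3 r x hx)
      (by
        intro r c hrc
        exact c3 c r hrc)
      (chainOn_tr _ _ _ (c6 _ (chainOn_tr _ _ _ r7)))
      (chainOn_tr _ _ _ c7) hne
    rw [NI_tr] at hcount
    exact hcount.trans (c4.trans (r4.trans hNA2))
  · refine hd2.trans ?_
    gcongr
  · have t1 := diff_triangle A (fixC A (stp n w)) (tr M')
    have t2 := diff_triangle (fixC A (stp n w))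
      (tr (fixC (tr (fixC A (stp n w))) (stp n w))) (tr M')
    have t3 := diff_triangle (tr (fixC (tr (fixC A (stp n w))) (stp n w))) B2 (tr M')
    rw [hdiff2] at t2
    rw [hdiff4] at t3
    omega

end Vale.Agent.Lib.P037
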