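import Vale.Agent.Lib.P037.Basic

namespace Vale.Agent.Lib.P037

open Finset

set_option linter.unusedSectionVars false
set_option linter.unusedSimpArgs false

theorem sum_split4 {α : Type} [Fintype α] [DecidableEq α] (h : α → α → ℕ) (P : Finset α) :
    ∑ u, ∑ v, h u v = ∑ u ∈ P, ∑ v ∈ P, h u v + ∑ u ∈ P, ∑ v ∈ Pᶜ, h u v +
      ∑ v ∈ P, ∑ u ∈ Pᶜ, h u v + ∑ u ∈ Pᶜ, ∑ v ∈ Pᶜ, h u v := by
  have h1 : ∀ u, ∑ v, h u v = ∑ v ∈ P, h u v + ∑ v ∈ Pᶜ, h u v :=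
    fun u => (Finset.sum_add_sum_compl P _).symm
  rw [← Finset.sum_add_sum_compl P (fun u => ∑ v, h u v)]
  rw [Finset.sum_congr rfl (fun u _ => h1 u), Finset.sum_congr (s₁ := Pᶜ) rfl (fun u _ => h1 u)]
  rw [Finset.sum_add_distrib, Finset.sum_add_distrib]
  rw [Finset.sum_comm (s := Pᶜ) (t := P)]
  ring

theorem rep_step {α : Type} [Fintype α] [DecidableEq α] (g : α → α → ℕ) (P : Finset α)
    (hP : P.Nonempty) (hg : ∀ u ∈ P, ∀ v ∈ P, g u v = 0) :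
    ∃ u0 ∈ P, ∑ u, ∑ v, g (if u ∈ P then u0 else u) (if v ∈ P then u0 else v)
      ≤ ∑ u, ∑ v, g u v := by
  obtain ⟨u0, hu0, hmin⟩ := Finset.exists_min_image P
    (fun x => ∑ v ∈ Pᶜ, g x v + ∑ u ∈ Pᶜ, g u x) hP
  refine ⟨u0, hu0, ?_⟩
  rw [sum_split4 (fun u v => g (if u ∈ P then u0 else u) (if v ∈ P then u0 else v)) P,
    sum_split4 g P]
  have e1 : ∑ u ∈ P, ∑ v ∈ P, g (if u ∈ P then u0 else u) (if v ∈ P then u0 else v) = 0 := by
    apply Finset.sum_eq_zero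
    intro u hu
    apply Finset.sum_eq_zero
    intro v hv
    rw [if_pos hu, if_pos hv]
    exact hg u0 hu0 u0 hu0
  have e1' : ∑ u ∈ P, ∑ v ∈ P, g u v = 0 := by
    apply Finset.sum_eq_zero
    intro u hu
    apply Finset.sum_eq_zero
    intro v hv
    exact hg u hu v hv
  have e2 : ∑ u ∈ P, ∑ v ∈ Pᶜ, g (if u ∈ P then u0 else u) (if v ∈ P then u0 else v)
      = ∑ _x ∈ P, ∑ v ∈ Pᶜ, g u0 v := by
    refine Finset.sum_congr rfl (fun u hu => Finset.sum_congr rfl (fun v hv => ?_))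
    rw [if_pos hu, if_neg (Finset.mem_compl.1 hv)]
  have e3 : ∑ v ∈ P, ∑ u ∈ Pᶜ, g (if u ∈ P then u0 else u) (if v ∈ P then u0 else v)
      = ∑ _x ∈ P, ∑ u ∈ Pᶜ, g u u0 := by
    refine Finset.sum_congr rfl (fun v hv => Finset.sum_congr rfl (fun u hu => ?_))
    rw [if_pos hv, if_neg (Finset.mem_compl.1 hu)]
  have e4 : ∑ u ∈ Pᶜ, ∑ v ∈ Pᶜ, g (if u ∈ P then u0 else u) (if v ∈ P then u0 else v)
      = ∑ u ∈ Pᶜ, ∑ v ∈ Pᶜ, g u v := by
    refine Finset.sum_congr rfl (fun u hu => Finset.sum_congr rfl (fun v hv => ?_))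
    rw [if_neg (Finset.mem_compl.1 hu), if_neg (Finset.mem_compl.1 hv)]
  rw [e1, e1', e2, e3, e4]
  have e5 : ∑ _x ∈ P, ∑ v ∈ Pᶜ, g u0 v + ∑ _x ∈ P, ∑ u ∈ Pᶜ, g u u0
      ≤ ∑ x ∈ P, ∑ v ∈ Pᶜ, g x v + ∑ x ∈ P, ∑ u ∈ Pᶜ, g u x := by
    calc ∑ _x ∈ P, ∑ v ∈ Pᶜ, g u0 v + ∑ _x ∈ P, ∑ u ∈ Pᶜ, g u u0
        = ∑ _x ∈ P, (∑ v ∈ Pᶜ, g u0 v + ∑ u ∈ Pᶜ, g u u0) := Finset.sum_add_distrib.symm
      _ ≤ ∑ x ∈ P, (∑ v ∈ Pᶜ, g x v + ∑ u ∈ Pᶜ, g u x) :=
          Finset.sum_le_sum (fun x hx => hmin x hx)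
      _ = ∑ x ∈ P, ∑ v ∈ Pᶜ, g x v + ∑ x ∈ P, ∑ u ∈ Pᶜ, g u x := Finset.sum_add_distrib
  omega

theorem rep_exists {α γ : Type} [Fintype α] [DecidableEq α] [DecidableEq γ]
    (g : α → α → ℕ) (p : α → γ) (hg : ∀ u v, p u = p v → g u v = 0) (D : Finset γ) :
    ∃ ψ : α → α, (∀ r, p (ψ r) = p r) ∧ (∀ r r', p r = p r' → p r ∈ D → ψ r = ψ r') ∧
      ∑ u, ∑ v, g (ψ u) (ψ v) ≤ ∑ u, ∑ v, g u v := by
  induction D using Finset.induction_on with
  | empty =>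
    exact ⟨id, fun _ => rfl, fun _ _ _ h => absurd h (Finset.notMem_empty _), le_rfl⟩
  | insert P0 D hP0 ih =>
    obtain ⟨ψ, h1, h2, h3⟩ := ih
    by_cases hne : (univ.filter (fun r => p r = P0)).Nonempty
    · obtain ⟨u0, hu0, hle⟩ := rep_step (fun u v => g (ψ u) (ψ v))
        (univ.filter (fun r => p r = P0)) hne (by
          intro u hu v hv
          simp only [mem_filter, mem_univ, true_and] at hu hv
          exact hg _ _ (by rw [h1, h1, hu, hv]))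
      simp only [mem_filter, mem_univ, true_and] at hu0 hle
      refine ⟨fun r => ψ (if p r = P0 then u0 else r), ?_, ?_, hle.trans h3⟩
      · intro r
        rw [h1]
        split_ifs with h
        · rw [hu0, h]
        · rfl
      · intro r r' hrr' hr
        by_cases h : p r = P0
        · have h' : p r' = P0 := hrr' ▸ h
          simp only [if_pos h, if_pos h']
        · have h' : ¬ p r' = P0 := hrr' ▸ h
          simp only [if_neg h, if_neg h']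
          rcases Finset.mem_insert.1 hr with h4 | h4
          · exact absurd h4 h
          · exact h2 r r' hrr' h4
    · refine ⟨ψ, h1, ?_, h3⟩
      intro r r' hrr' hr
      rcases Finset.mem_insert.1 hr with h4 | h4
      · exfalso
        exact hne ⟨r, by simp [h4]⟩
      · exact h2 r r' hrr' h4

end Vale.Agent.Lib.P037
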