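import Mathlib

namespace Vale.Agent.Lib.P037

open Finset

set_option linter.unusedSectionVars false

variable {β : Type} [DecidableEq β]

/-- pairs of `X × Y` lying in the same strip -/
def nar (t : β → ℕ) (X Y : Finset β) : ℕ :=
  ((X ×ˢ Y).filter (fun p => t p.1 = t p.2)).card

/-- pairs of `X × Y` with the first in a strictly earlier strip -/
def wid (t : β → ℕ) (X Y : Finset β) : ℕ :=
  ((X ×ˢ Y).filter (fun p => t p.1 < t p.2)).card

/-- size of the part of `X` in strip `τ` -/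
def fib (t : β → ℕ) (X : Finset β) (τ : ℕ) : ℕ :=
  (X.filter (fun c => t c = τ)).card

theorem seq_lemma (a b : ℕ → ℕ) (w : ℕ) (ha : ∀ i, a i ≤ w) (hb : ∀ i, b i ≤ w) (k : ℕ) :
    ∑ i ∈ range k, a i * b i ≤
      ∑ i ∈ range k, (∑ j ∈ range i, a j) * b i + w * min (∑ i ∈ range k, a i) (2 * w) := by
  induction k with
  | zero => simp
  | succ k ih =>
    rw [Finset.sum_range_succ, Finset.sum_range_succ, Finset.sum_range_succ]
    set S := ∑ i ∈ range k, a i * b i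
    set X := ∑ i ∈ range k, (∑ j ∈ range i, a j) * b i
    set Ak := ∑ i ∈ range k, a i
    have h1 := ha k
    have h2 := hb k
    rcases le_or_gt w Ak with h | h
    · have h3 : a k * b k ≤ Ak * b k := Nat.mul_le_mul_right _ (h1.trans h)
      have h4 : w * min Ak (2 * w) ≤ w * min (Ak + a k) (2 * w) :=
        Nat.mul_le_mul_left _ (min_le_min (Nat.le_add_right _ _) le_rfl)
      omega
    · have h3 : min Ak (2 * w) = Ak := min_eq_left (by omega)
      have h4 : min (Ak + a k) (2 * w) = Ak + a k := min_eq_left (by omega)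
      rw [h3] at ih
      rw [h4]
      have h5 : a k * b k ≤ a k * w := Nat.mul_le_mul_left _ h2
      have h6 : w * (Ak + a k) = w * Ak + a k * w := by ring
      omega

theorem seq_lemma' (a b : ℕ → ℕ) (w : ℕ) (ha : ∀ i, a i ≤ w) (hb : ∀ i, b i ≤ w) (k : ℕ) :
    ∑ i ∈ range k, a i * b i ≤
      2 * w ^ 2 + ∑ i ∈ range k, (∑ j ∈ range i, a j) * b i := by
  have h := seq_lemma a b w ha hb k
  have h2 : w * min (∑ i ∈ range k, a i) (2 * w) ≤ w * (2 * w) :=
    Nat.mul_le_mul_left _ (min_le_right _ _)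
  have h3 : w * (2 * w) = 2 * w ^ 2 := by ring
  omega

theorem nar_eq (t : β → ℕ) (X Y : Finset β) (m : ℕ) (hm : ∀ c, t c < m) :
    nar t X Y = ∑ τ ∈ range m, fib t X τ * fib t Y τ := by
  unfold nar
  rw [Finset.card_eq_sum_card_fiberwise (f := fun p : β × β => t p.1) (t := range m)
    (fun p _ => Finset.mem_coe.2 (mem_range.2 (hm _)))]
  refine Finset.sum_congr rfl (fun τ _ => ?_)
  unfold fib
  rw [← Finset.card_product]
  congr 1
  ext p
  simp only [mem_filter, mem_product]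
  constructor
  · rintro ⟨⟨⟨h1, h2⟩, h3⟩, h4⟩
    exact ⟨⟨h1, h4⟩, h2, h3 ▸ h4⟩
  · rintro ⟨⟨h1, h2⟩, h3, h4⟩
    exact ⟨⟨⟨h1, h3⟩, h2.trans h4.symm⟩, h2⟩

theorem wid_eq (t : β → ℕ) (X Y : Finset β) (m : ℕ) (hm : ∀ c, t c < m) :
    wid t X Y = ∑ τ' ∈ range m, (∑ τ ∈ range τ', fib t X τ) * fib t Y τ' := by
  unfold wid
  rw [Finset.card_eq_sum_card_fiberwise (f := fun p : β × β => t p.2) (t := range m)
    (fun p _ => Finset.mem_coe.2 (mem_range.2 (hm _)))]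
  refine Finset.sum_congr rfl (fun τ' _ => ?_)
  have h1 : ∑ τ ∈ range τ', fib t X τ = (X.filter (fun c => t c < τ')).card := by
    rw [Finset.card_eq_sum_card_fiberwise (f := t) (s := X.filter (fun c => t c < τ'))
      (t := range τ') (fun c hc => Finset.mem_coe.2 (mem_range.2 (mem_filter.1
        (Finset.mem_coe.1 hc)).2))]
    refine Finset.sum_congr rfl (fun τ hτ => ?_)
    unfold fib
    congr 1
    ext c
    simp only [mem_filter]
    constructor
    · rintro ⟨h1, h2⟩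
      exact ⟨⟨h1, h2 ▸ mem_range.1 hτ⟩, h2⟩
    · rintro ⟨⟨h1, _⟩, h2⟩
      exact ⟨h1, h2⟩
  rw [h1]
  unfold fib
  rw [← Finset.card_product]
  congr 1
  ext p
  simp only [mem_filter, mem_product]
  constructor
  · rintro ⟨⟨⟨h1, h2⟩, h3⟩, h4⟩
    exact ⟨⟨h1, h4 ▸ h3⟩, h2, h4⟩
  · rintro ⟨⟨h1, h2⟩, h3, h4⟩
    exact ⟨⟨⟨h1, h3⟩, h4 ▸ h2⟩, h4⟩

theorem nar_le (t : β → ℕ) (X Y : Finset β) (m w : ℕ) (hm : ∀ c, t c < m)
    (hX : ∀ τ, fib t X τ ≤ w) (hY : ∀ τ, fib t Y τ ≤ w) :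
    nar t X Y ≤ 2 * w ^ 2 + wid t X Y := by
  rw [nar_eq t X Y m hm, wid_eq t X Y m hm]
  exact seq_lemma' _ _ w hX hY m

theorem wid_mono (t : β → ℕ) (X Y X' Y' : Finset β) (m : ℕ) (hm : ∀ c, t c < m)
    (hX : ∀ τ, fib t X' τ ≤ fib t X τ) (hY : ∀ τ, fib t Y' τ ≤ fib t Y τ) :
    wid t X' Y' ≤ wid t X Y := by
  rw [wid_eq t X Y m hm, wid_eq t X' Y' m hm]
  refine Finset.sum_le_sum (fun τ' _ => ?_)
  exact Nat.mul_le_mul (Finset.sum_le_sum (fun τ _ => hX τ)) (hY τ')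

theorem nar_comm (t : β → ℕ) (X Y : Finset β) : nar t X Y = nar t Y X := by
  unfold nar
  refine Finset.card_bij (fun p _ => (p.2, p.1)) ?_ ?_ ?_
  · intro p hp
    simp only [mem_filter, mem_product] at hp ⊢
    exact ⟨⟨hp.1.2, hp.1.1⟩, hp.2.symm⟩
  · intro p _ q _ h
    simp only [Prod.mk.injEq] at h
    exact Prod.ext h.2 h.1
  · intro p hp
    refine ⟨(p.2, p.1), ?_, rfl⟩
    simp only [mem_filter, mem_product] at hp ⊢
    exact ⟨⟨hp.1.2, hp.1.1⟩, hp.2.symm⟩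

end Vale.Agent.Lib.P037
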