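import Vale.Agent.Lib.P037.Basic
import Vale.Agent.Lib.P037.Seq

namespace Vale.Agent.Lib.P037

open Finset

set_option linter.unusedSectionVars false
set_option linter.unusedSimpArgs false

variable {α β : Type} [Fintype α] [Fintype β] [LinearOrder α] [LinearOrder β]

/-- number of ones of row `r` inside strip `τ` -/
def sdeg (A : α → β → Bool) (t : β → ℕ) (r : α) (τ : ℕ) : ℕ :=
  (univ.filter (fun c => t c = τ ∧ A r c = true)).card

/-- number of ones in column `c` -/
def cdeg (A : α → β → Bool) (c : β) : ℕ :=
  (univ.filter (fun r => A r c = true)).card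

/-- sorting key of a column: larger degree first, then smaller index -/
def key (A : α → β → Bool) (c : β) : ℕᵒᵈ ×ₗ β :=
  toLex (OrderDual.toDual (cdeg A c), c)

/-- rank of a column inside its strip -/
def rnk (A : α → β → Bool) (t : β → ℕ) (c : β) : ℕ :=
  (univ.filter (fun c' => t c' = t c ∧ key A c' < key A c)).card

/-- the degree preserving chain repair of the column strips -/
def fixC (A : α → β → Bool) (t : β → ℕ) : α → β → Bool :=
  fun r c => decide (rnk A t c < sdeg A t r (t c))

theorem key_lt_iff (A : α → β → Bool) (c c' : β) :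
    key A c < key A c' ↔ cdeg A c' < cdeg A c ∨ (cdeg A c = cdeg A c' ∧ c < c') := by
  unfold key
  rw [Prod.Lex.toLex_lt_toLex]
  simp

theorem key_inj (A : α → β → Bool) (c c' : β) (h : key A c = key A c') : c = c' := by
  unfold key at h
  have h2 := congrArg (fun x => (ofLex x).2) h
  simpa using h2

theorem cdeg_le_of_key_lt (A : α → β → Bool) (c c' : β) (h : key A c < key A c') :
    cdeg A c' ≤ cdeg A c := by
  rw [key_lt_iff] at h
  rcases h with h | h
  · exact h.le
  · exact h.1.ge

theorem rnk_lt_of_key_lt (A : α → β → Bool) (t : β → ℕ) (c c' : β) (ht : t c = t c')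
    (h : key A c < key A c') : rnk A t c < rnk A t c' := by
  unfold rnk
  apply Finset.card_lt_card
  rw [Finset.ssubset_iff_of_subset]
  · refine ⟨c, ?_, ?_⟩
    · simp only [mem_filter, mem_univ, true_and]
      exact ⟨ht, h⟩
    · simp only [mem_filter, mem_univ, true_and, lt_self_iff_false, and_false, not_false_eq_true]
  · intro x hx
    simp only [mem_filter, mem_univ, true_and] at hx ⊢
    exact ⟨hx.1.trans ht, hx.2.trans h⟩

theorem key_lt_of_rnk_lt (A : α → β → Bool) (t : β → ℕ) (c c' : β) (ht : t c = t c')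
    (h : rnk A t c < rnk A t c') : key A c < key A c' := by
  rcases lt_trichotomy (key A c) (key A c') with h1 | h1 | h1
  · exact h1
  · have := key_inj A c c' h1
    subst this
    exact absurd h (lt_irrefl _)
  · have := rnk_lt_of_key_lt A t c' c ht.symm h1
    omega

/-- the strip with index `τ` -/
def strip (t : β → ℕ) (τ : ℕ) : Finset β := univ.filter (fun c => t c = τ)

theorem rnk_lt_card (A : α → β → Bool) (t : β → ℕ) (c : β) :
    rnk A t c < (strip t (t c)).card := by
  unfold rnk strip
  apply Finset.card_lt_card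
  rw [Finset.ssubset_iff_of_subset]
  · refine ⟨c, ?_, ?_⟩
    · simp only [mem_filter, mem_univ, true_and]
    · simp only [mem_filter, mem_univ, true_and, lt_self_iff_false, and_false, not_false_eq_true]
  · intro x hx
    simp only [mem_filter, mem_univ, true_and] at hx ⊢
    exact hx.1

theorem rnk_injOn (A : α → β → Bool) (t : β → ℕ) (τ : ℕ) :
    Set.InjOn (rnk A t) (strip t τ : Set β) := by
  intro c hc c' hc' h
  have h1 : t c = τ := by simpa [strip] using hc
  have h2 : t c' = τ := by simpa [strip] using hc'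
  rcases lt_trichotomy (key A c) (key A c') with h3 | h3 | h3
  · have := rnk_lt_of_key_lt A t c c' (h1.trans h2.symm) h3
    omega
  · exact key_inj A c c' h3
  · have := rnk_lt_of_key_lt A t c' c (h2.trans h1.symm) h3
    omega

theorem image_rnk_strip (A : α → β → Bool) (t : β → ℕ) (τ : ℕ) :
    (strip t τ).image (rnk A t) = range (strip t τ).card := by
  apply Finset.eq_of_subset_of_card_le
  · intro k hk
    rw [mem_image] at hk
    obtain ⟨c, hc, rfl⟩ := hk
    have h1 : t c = τ := by simpa [strip] using hc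
    rw [mem_range]
    have := rnk_lt_card A t c
    rw [h1] at this
    exact this
  · rw [Finset.card_range, Finset.card_image_of_injOn (rnk_injOn A t τ)]

theorem card_rnk_lt (A : α → β → Bool) (t : β → ℕ) (τ d : ℕ) (hd : d ≤ (strip t τ).card) :
    (univ.filter (fun c => t c = τ ∧ rnk A t c < d)).card = d := by
  have h1 : (univ.filter (fun c => t c = τ ∧ rnk A t c < d))
      = (strip t τ).filter (fun c => rnk A t c < d) := by
    unfold strip
    rw [Finset.filter_filter]
  rw [h1]
  have h2 : ((strip t τ).filter (fun c => rnk A t c < d)).image (rnk A t) = range d := by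
    ext k
    simp only [mem_image, mem_filter, mem_range]
    constructor
    · rintro ⟨c, ⟨_, hc⟩, rfl⟩
      exact hc
    · intro hk
      have h3 : k ∈ (strip t τ).image (rnk A t) := by
        rw [image_rnk_strip, mem_range]
        omega
      rw [mem_image] at h3
      obtain ⟨c, hc, rfl⟩ := h3
      exact ⟨c, ⟨hc, hk⟩, rfl⟩
  have h3 : Set.InjOn (rnk A t) ((strip t τ).filter (fun c => rnk A t c < d) : Set β) :=
    (rnk_injOn A t τ).mono (by
      intro x hx
      exact Finset.mem_coe.2 (Finset.mem_of_mem_filter _ (Finset.mem_coe.1 hx)))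
  rw [← Finset.card_image_of_injOn h3, h2, Finset.card_range]

theorem sdeg_le (A : α → β → Bool) (t : β → ℕ) (r : α) (τ : ℕ) :
    sdeg A t r τ ≤ (strip t τ).card := by
  unfold sdeg strip
  apply Finset.card_le_card
  intro c hc
  simp only [mem_filter, mem_univ, true_and] at hc ⊢
  exact hc.1

theorem fixC_apply (A : α → β → Bool) (t : β → ℕ) (r : α) (c : β) :
    fixC A t r c = true ↔ rnk A t c < sdeg A t r (t c) := by
  simp [fixC]

theorem fixC_apply_false (A : α → β → Bool) (t : β → ℕ) (r : α) (c : β) :
    fixC A t r c = false ↔ ¬ rnk A t c < sdeg A t r (t c) := by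
  simp [fixC]

theorem sdeg_fixC (A : α → β → Bool) (t : β → ℕ) (r : α) (τ : ℕ) :
    sdeg (fixC A t) t r τ = sdeg A t r τ := by
  have h := card_rnk_lt A t τ (sdeg A t r τ) (sdeg_le A t r τ)
  rw [← h]
  unfold sdeg
  congr 1
  ext c
  simp only [mem_filter, mem_univ, true_and, fixC_apply]
  constructor
  · rintro ⟨h1, h2⟩
    refine ⟨h1, ?_⟩
    rw [h1] at h2
    exact h2
  · rintro ⟨h1, h2⟩
    refine ⟨h1, ?_⟩
    rw [h1]
    exact h2

theorem fixC_chain (A : α → β → Bool) (t : β → ℕ) :
    ChainOn (fixC A t) (fun _ _ => True) (fun c c' => t c = t c') := by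
  intro r r' c c' _ hc hx
  rw [fixC_apply, fixC_apply_false, fixC_apply_false, fixC_apply] at hx
  obtain ⟨h1, h2, h3, h4⟩ := hx
  rw [← hc] at h2 h4
  omega

theorem exists_of_sdeg_lt (A : α → β → Bool) (t : β → ℕ) (r r' : α) (τ : ℕ)
    (h : sdeg A t r' τ < sdeg A t r τ) : ∃ y, t y = τ ∧ A r y = true ∧ A r' y = false := by
  by_contra hcon
  have h2 : sdeg A t r τ ≤ sdeg A t r' τ := by
    unfold sdeg
    apply Finset.card_le_card
    intro c hc
    simp only [mem_filter, mem_univ, true_and] at hc ⊢
    refine ⟨hc.1, ?_⟩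
    by_contra h3
    exact hcon ⟨c, hc.1, hc.2, by simpa using h3⟩
  omega

theorem fixC_chain_rows (A : α → β → Bool) (t : β → ℕ) (E : α → α → Prop)
    (h : ChainOn A E (fun _ _ => True)) : ChainOn (fixC A t) E (fun _ _ => True) := by
  intro r r' c c' hE _ hx
  rw [fixC_apply, fixC_apply_false, fixC_apply_false, fixC_apply] at hx
  obtain ⟨h1, h2, h3, h4⟩ := hx
  have h5 : sdeg A t r' (t c) < sdeg A t r (t c) := by omega
  have h6 : sdeg A t r (t c') < sdeg A t r' (t c') := by omega
  obtain ⟨y1, _, hy1, hy1'⟩ := exists_of_sdeg_lt A t r r' (t c) h5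
  obtain ⟨y2, _, hy2, hy2'⟩ := exists_of_sdeg_lt A t r' r (t c') h6
  exact h r r' y1 y2 hE trivial ⟨hy1, hy2', hy1', hy2⟩

end Vale.Agent.Lib.P037
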