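import Vale.Agent.Lib.P037.StripN

namespace Vale.Agent.Lib.P037

open Finset

set_option linter.unusedSectionVars false
set_option linter.unusedSimpArgs false

variable {α β : Type} [Fintype α] [Fintype β] [LinearOrder α] [LinearOrder β]

/-- ones of row `r` in strip `τ` that the repair removes -/
def setO (A : α → β → Bool) (t : β → ℕ) (r : α) (τ : ℕ) : Finset β :=
  univ.filter (fun c => t c = τ ∧ A r c = true ∧ fixC A t r c = false)

/-- zeros of row `r` in strip `τ` that the repair fills -/
def setZ (A : α → β → Bool) (t : β → ℕ) (r : α) (τ : ℕ) : Finset β :=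
  univ.filter (fun c => t c = τ ∧ A r c = false ∧ fixC A t r c = true)

theorem card_setZ (A : α → β → Bool) (t : β → ℕ) (r : α) (τ : ℕ) :
    (setZ A t r τ).card = (setO A t r τ).card := by
  have hcard : (univ.filter (fun c => t c = τ ∧ fixC A t r c = true)).card
      = (univ.filter (fun c => t c = τ ∧ A r c = true)).card := sdeg_fixC A t r τ
  have h1 : setZ A t r τ = (univ.filter (fun c => t c = τ ∧ fixC A t r c = true)) \
      (univ.filter (fun c => t c = τ ∧ A r c = true)) := by
    ext c
    simp only [setZ, mem_filter, mem_sdiff, mem_univ, true_and]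
    constructor
    · rintro ⟨h1, h2, h3⟩
      exact ⟨⟨h1, h3⟩, fun h => by simp [h2] at h⟩
    · rintro ⟨⟨h1, h2⟩, h3⟩
      refine ⟨h1, ?_, h2⟩
      cases hv : A r c
      · rfl
      · exact absurd ⟨h1, hv⟩ h3
  have h2 : setO A t r τ = (univ.filter (fun c => t c = τ ∧ A r c = true)) \
      (univ.filter (fun c => t c = τ ∧ fixC A t r c = true)) := by
    ext c
    simp only [setO, mem_filter, mem_sdiff, mem_univ, true_and]
    constructor
    · rintro ⟨h1, h2, h3⟩
      exact ⟨⟨h1, h2⟩, fun h => by simp [h3] at h⟩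
    · rintro ⟨⟨h1, h2⟩, h3⟩
      refine ⟨h1, h2, ?_⟩
      cases hv : fixC A t r c
      · rfl
      · exact absurd ⟨h1, hv⟩ h3
  rw [h1, h2]
  exact Finset.card_sdiff_comm hcard

theorem diff_row_fixC (A : α → β → Bool) (t : β → ℕ) (m : ℕ) (hm : ∀ c, t c < m) (r : α) :
    (univ.filter (fun c => A r c ≠ fixC A t r c)).card
      = 2 * ∑ τ ∈ range m, (setO A t r τ).card := by
  rw [Finset.card_eq_sum_card_fiberwise (f := t) (t := range m)
    (fun c _ => Finset.mem_coe.2 (mem_range.2 (hm c))), Finset.mul_sum]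
  refine Finset.sum_congr rfl (fun τ _ => ?_)
  have h1 : (univ.filter (fun c => A r c ≠ fixC A t r c)).filter (fun c => t c = τ)
      = setO A t r τ ∪ setZ A t r τ := by
    ext c
    simp only [setO, setZ, mem_filter, mem_union, mem_univ, true_and]
    cases hA : A r c <;> cases hB : fixC A t r c <;> simp
  have h2 : Disjoint (setO A t r τ) (setZ A t r τ) := by
    rw [Finset.disjoint_left]
    intro c hc hc'
    simp only [setO, setZ, mem_filter, mem_univ, true_and] at hc hc'
    rw [hc.2.1] at hc'
    exact absurd hc'.2.1 (by simp)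
  rw [h1, Finset.card_union_of_disjoint h2, card_setZ]
  ring

theorem diff_fixC (A : α → β → Bool) (t : β → ℕ) (m : ℕ) (hm : ∀ c, t c < m) :
    diff A (fixC A t) = 2 * ∑ x ∈ (univ : Finset α) ×ˢ range m, (setO A t x.1 x.2).card := by
  unfold diff
  rw [Finset.sum_product' (f := fun r τ => (setO A t r τ).card), Finset.mul_sum]
  exact Finset.sum_congr rfl (fun r _ => diff_row_fixC A t m hm r)

/-- inversions of row `r` inside strip `τ` -/
def inv (A : α → β → Bool) (t : β → ℕ) (r : α) (τ : ℕ) : ℕ :=
  (univ.filter (fun p : β × β => t p.1 = τ ∧ t p.2 = τ ∧ key A p.1 < key A p.2 ∧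
    A r p.1 = false ∧ A r p.2 = true)).card

theorem setO_sq_le (A : α → β → Bool) (t : β → ℕ) (r : α) (τ : ℕ) :
    (setO A t r τ).card ^ 2 ≤ inv A t r τ := by
  have h1 : (setO A t r τ).card ^ 2 = (setZ A t r τ ×ˢ setO A t r τ).card := by
    rw [Finset.card_product, card_setZ, sq]
  rw [h1]
  unfold inv
  apply Finset.card_le_card
  intro p hp
  simp only [setO, setZ, mem_filter, mem_product, mem_univ, true_and, fixC_apply,
    fixC_apply_false] at hp ⊢
  obtain ⟨⟨h1, h2, h3⟩, h4, h5, h6⟩ := hp
  refine ⟨h1, h4, ?_, h2, h5⟩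
  apply key_lt_of_rnk_lt A t p.1 p.2 (h1.trans h4.symm)
  rw [h1] at h3
  rw [h4] at h6
  omega

/-- inversions of row `r` -/
def invr (A : α → β → Bool) (t : β → ℕ) (r : α) : ℕ :=
  (univ.filter (fun p : β × β => t p.1 = t p.2 ∧ key A p.1 < key A p.2 ∧
    A r p.1 = false ∧ A r p.2 = true)).card

theorem sum_inv (A : α → β → Bool) (t : β → ℕ) (m : ℕ) (hm : ∀ c, t c < m) (r : α) :
    ∑ τ ∈ range m, inv A t r τ = invr A t r := by
  unfold invr
  rw [Finset.card_eq_sum_card_fiberwise (f := fun p : β × β => t p.1) (t := range m)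
    (fun p _ => Finset.mem_coe.2 (mem_range.2 (hm _)))]
  refine Finset.sum_congr rfl (fun τ _ => ?_)
  unfold inv
  congr 1
  ext p
  simp only [mem_filter, mem_univ, true_and]
  constructor
  · rintro ⟨h1, h2, h3, h4, h5⟩
    exact ⟨⟨h1.trans h2.symm, h3, h4, h5⟩, h1⟩
  · rintro ⟨⟨h1, h3, h4, h5⟩, h2⟩
    exact ⟨h2, h1 ▸ h2, h3, h4, h5⟩

/-- pairs of columns of one strip, in key order -/
def PR (A : α → β → Bool) (t : β → ℕ) : Finset (β × β) :=
  univ.filter (fun p => t p.1 = t p.2 ∧ key A p.1 < key A p.2)

/-- rows having a zero in the first column and a one in the second -/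
def mu (A : α → β → Bool) (p : β × β) : ℕ :=
  (univ.filter (fun r => A r p.1 = false ∧ A r p.2 = true)).card

theorem sum_invr (A : α → β → Bool) (t : β → ℕ) :
    ∑ r, invr A t r = ∑ p ∈ PR A t, mu A p := by
  have h := Finset.sum_card_bipartiteAbove_eq_sum_card_bipartiteBelow
    (s := (univ : Finset α)) (t := PR A t) (fun r p => A r p.1 = false ∧ A r p.2 = true)
  have h1 : ∀ r, invr A t r
      = (Finset.bipartiteAbove (fun r p => A r p.1 = false ∧ A r p.2 = true) (PR A t) r).card := by
    intro r
    unfold invr Finset.bipartiteAbove PR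
    rw [Finset.filter_filter]
    congr 1
    ext p
    simp only [mem_filter, mem_univ, true_and, and_assoc]
  have h2 : ∀ p, mu A p
      = (Finset.bipartiteBelow (fun r p => A r p.1 = false ∧ A r p.2 = true) univ p).card := by
    intro p
    rfl
  rw [Finset.sum_congr rfl (fun r _ => h1 r), Finset.sum_congr rfl (fun p _ => h2 p)]
  exact h

/-- row pairs forming an induced 2K2 on the column pair `p` -/
def UU (A : α → β → Bool) (p : β × β) : ℕ :=
  (univ.filter (fun q : α × α => A q.1 p.1 = false ∧ A q.1 p.2 = true ∧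
    A q.2 p.1 = true ∧ A q.2 p.2 = false)).card

theorem mu_sq_le (A : α → β → Bool) (t : β → ℕ) (p : β × β) (hp : p ∈ PR A t) :
    mu A p ^ 2 ≤ UU A p := by
  have hmu : mu A p = ((univ.filter (fun r => A r p.2 = true)) \
      (univ.filter (fun r => A r p.1 = true))).card := by
    unfold mu
    congr 1
    ext r
    simp only [mem_filter, mem_sdiff, mem_univ, true_and]
    constructor
    · rintro ⟨h1, h2⟩
      exact ⟨h2, by simp [h1]⟩
    · rintro ⟨h1, h2⟩
      exact ⟨by simpa using h2, h1⟩
  have hU : UU A p = ((univ.filter (fun r => A r p.2 = true)) \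
      (univ.filter (fun r => A r p.1 = true))).card *
      ((univ.filter (fun r => A r p.1 = true)) \ (univ.filter (fun r => A r p.2 = true))).card := by
    unfold UU
    rw [← Finset.card_product]
    congr 1
    ext q
    simp only [mem_filter, mem_sdiff, mem_product, mem_univ, true_and]
    constructor
    · rintro ⟨h1, h2, h3, h4⟩
      exact ⟨⟨h2, by simp [h1]⟩, h3, by simp [h4]⟩
    · rintro ⟨⟨h1, h2⟩, h3, h4⟩
      exact ⟨by simpa using h2, h1, h3, by simpa using h4⟩
  have hle : ((univ.filter (fun r => A r p.2 = true)) \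
      (univ.filter (fun r => A r p.1 = true))).card ≤
      ((univ.filter (fun r => A r p.1 = true)) \ (univ.filter (fun r => A r p.2 = true))).card := by
    have h1 := Finset.card_sdiff_add_card_inter (univ.filter (fun r => A r p.2 = true))
      (univ.filter (fun r => A r p.1 = true))
    have h2 := Finset.card_sdiff_add_card_inter (univ.filter (fun r => A r p.1 = true))
      (univ.filter (fun r => A r p.2 = true))
    rw [Finset.inter_comm] at h1
    have h4 : (univ.filter (fun r => A r p.2 = true)).card
        ≤ (univ.filter (fun r => A r p.1 = true)).card :=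
      cdeg_le_of_key_lt A p.1 p.2 (mem_filter.1 hp).2.2
    omega
  rw [hmu, hU, sq]
  exact Nat.mul_le_mul_left _ hle

end Vale.Agent.Lib.P037
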