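import Vale.Agent.Lib.P037.StripD

namespace Vale.Agent.Lib.P037

open Finset

set_option linter.unusedSectionVars false
set_option linter.unusedSimpArgs false

variable {α β : Type} [Fintype α] [Fintype β] [LinearOrder α] [LinearOrder β]

/-- column pairs in the same strip -/
def PS (t : β → ℕ) : Finset (β × β) := univ.filter (fun p => t p.1 = t p.2)

theorem sum_UU (A : α → β → Bool) (t : β → ℕ) :
    ∑ p ∈ PS t, UU A p = ∑ q : α × α, nar t (dn A q.2 q.1) (dn A q.1 q.2) := by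
  have h := Finset.sum_card_bipartiteAbove_eq_sum_card_bipartiteBelow
    (s := (univ : Finset (α × α))) (t := PS t)
    (fun q p => A q.1 p.1 = false ∧ A q.1 p.2 = true ∧ A q.2 p.1 = true ∧ A q.2 p.2 = false)
  have h1 : ∀ q : α × α, nar t (dn A q.2 q.1) (dn A q.1 q.2)
      = (Finset.bipartiteAbove (fun (q : α × α) (p : β × β) => A q.1 p.1 = false ∧
          A q.1 p.2 = true ∧ A q.2 p.1 = true ∧ A q.2 p.2 = false) (PS t) q).card := by
    intro q
    unfold nar Finset.bipartiteAbove PS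
    congr 1
    ext p
    simp only [mem_filter, mem_product, mem_dn, mem_univ, true_and]
    constructor
    · rintro ⟨⟨⟨h1, h2⟩, h3, h4⟩, h5⟩
      exact ⟨h5, h2, h3, h1, h4⟩
    · rintro ⟨h5, h2, h3, h1, h4⟩
      exact ⟨⟨⟨h1, h2⟩, h3, h4⟩, h5⟩
  have h2 : ∀ p : β × β, UU A p
      = (Finset.bipartiteBelow (fun (q : α × α) (p : β × β) => A q.1 p.1 = false ∧
          A q.1 p.2 = true ∧ A q.2 p.1 = true ∧ A q.2 p.2 = false) univ p).card := by
    intro p
    rfl
  rw [Finset.sum_congr rfl (fun q _ => h1 q), Finset.sum_congr rfl (fun p _ => h2 p)]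
  exact h.symm

theorem fib_le (t : β → ℕ) (X : Finset β) (w : ℕ) (hw : ∀ τ, (strip t τ).card ≤ w) (τ : ℕ) :
    fib t X τ ≤ w := by
  refine le_trans ?_ (hw τ)
  unfold fib strip
  apply Finset.card_le_card
  intro c hc
  simp only [mem_filter, mem_univ, true_and] at hc ⊢
  exact hc.2

theorem dn_self (A : α → β → Bool) (r : α) : dn A r r = ∅ := by
  ext c
  simp only [mem_dn, Finset.notMem_empty, iff_false]
  rintro ⟨h1, h2⟩
  rw [h1] at h2
  exact absurd h2 (by simp)

theorem nar_dn_le (A : α → β → Bool) (t : β → ℕ) (m w : ℕ) (hm : ∀ c, t c < m)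
    (hw : ∀ τ, (strip t τ).card ≤ w) (hmono : Monotone t) (r r' : α) :
    nar t (dn A r' r) (dn A r r') ≤
      2 * w ^ 2 + ((if r' < r then kap A r' r else 0) + (if r < r' then kap A r r' else 0)) := by
  rcases lt_trichotomy r' r with h | h | h
  · rw [if_pos h, if_neg (not_lt_of_gt h)]
    have h1 := nar_le t (dn A r' r) (dn A r r') m w hm (fib_le t _ w hw) (fib_le t _ w hw)
    have h2 := wid_le_kap A t hmono r' r
    omega
  · subst h
    rw [dn_self]
    simp [nar]
  · rw [if_neg (not_lt_of_gt h), if_pos h, nar_comm]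
    have h1 := nar_le t (dn A r r') (dn A r' r) m w hm (fib_le t _ w hw) (fib_le t _ w hw)
    have h2 := wid_le_kap A t hmono r r'
    omega

theorem sum_UU_le (A : α → β → Bool) (t : β → ℕ) (m w : ℕ) (hm : ∀ c, t c < m)
    (hw : ∀ τ, (strip t τ).card ≤ w) (hmono : Monotone t) :
    ∑ p ∈ PR A t, UU A p ≤ 2 * w ^ 2 * (Fintype.card α) ^ 2 + 2 * NI A := by
  have h1 : ∑ p ∈ PR A t, UU A p ≤ ∑ p ∈ PS t, UU A p := by
    apply Finset.sum_le_sum_of_subset
    intro p hp
    simp only [PR, PS, mem_filter, mem_univ, true_and] at hp ⊢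
    exact hp.1
  rw [sum_UU] at h1
  refine h1.trans ?_
  have h2 : ∑ q : α × α, nar t (dn A q.2 q.1) (dn A q.1 q.2) ≤
      ∑ q : α × α, (2 * w ^ 2 + ((if q.2 < q.1 then kap A q.2 q.1 else 0) +
        (if q.1 < q.2 then kap A q.1 q.2 else 0))) :=
    Finset.sum_le_sum (fun q _ => nar_dn_le A t m w hm hw hmono q.1 q.2)
  refine h2.trans (le_of_eq ?_)
  rw [Finset.sum_add_distrib, Finset.sum_add_distrib]
  have e1 : ∑ q : α × α, 2 * w ^ 2 = 2 * w ^ 2 * (Fintype.card α) ^ 2 := by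
    rw [Finset.sum_const, Finset.card_univ, Fintype.card_prod, smul_eq_mul]
    ring
  have e2 : ∑ q : α × α, (if q.2 < q.1 then kap A q.2 q.1 else 0) = NI A := by
    rw [Fintype.sum_prod_type, Finset.sum_comm]
    rfl
  have e3 : ∑ q : α × α, (if q.1 < q.2 then kap A q.1 q.2 else 0) = NI A := by
    rw [Fintype.sum_prod_type]
    rfl
  rw [e1, e2, e3]
  ring

theorem card_PR_le (A : α → β → Bool) (t : β → ℕ) (w : ℕ)
    (hw : ∀ τ, (strip t τ).card ≤ w) : (PR A t).card ≤ Fintype.card β * w := by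
  have h1 : (PR A t).card ≤ (PS t).card := by
    apply Finset.card_le_card
    intro p hp
    simp only [PR, PS, mem_filter, mem_univ, true_and] at hp ⊢
    exact hp.1
  refine h1.trans ?_
  unfold PS
  rw [Finset.card_filter, Fintype.sum_prod_type]
  have h2 : ∀ c : β, (∑ c' : β, if t c = t c' then 1 else 0) ≤ w := by
    intro c
    rw [← Finset.card_filter]
    refine le_trans (Finset.card_le_card ?_) (hw (t c))
    intro c' hc'
    simp only [strip, mem_filter, mem_univ, true_and] at hc' ⊢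
    exact hc'.symm
  calc ∑ c : β, ∑ c' : β, (if t c = t c' then 1 else 0) ≤ ∑ _c : β, w :=
        Finset.sum_le_sum (fun c _ => h2 c)
    _ = Fintype.card β * w := by rw [Finset.sum_const, Finset.card_univ, smul_eq_mul]

theorem fixC_diff_le (A : α → β → Bool) (t : β → ℕ) (m w : ℕ) (hm : ∀ c, t c < m)
    (hw : ∀ τ, (strip t τ).card ≤ w) (hmono : Monotone t) :
    (diff A (fixC A t)) ^ 4 ≤
      32 * (Fintype.card α * m) ^ 2 * (Fintype.card β * w) *
        (w ^ 2 * (Fintype.card α) ^ 2 + NI A) := by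
  rw [diff_fixC A t m hm]
  set J := ∑ x ∈ (univ : Finset α) ×ˢ range m, (setO A t x.1 x.2).card with hJ
  set INV := ∑ p ∈ PR A t, mu A p with hINV
  have hJ2 : J ^ 2 ≤ (Fintype.card α * m) * INV := by
    have h1 : J ^ 2 ≤ ((univ : Finset α) ×ˢ range m).card *
        ∑ x ∈ (univ : Finset α) ×ˢ range m, (setO A t x.1 x.2).card ^ 2 :=
      sq_sum_le_card_mul_sum_sq
    have h2 : ((univ : Finset α) ×ˢ range m).card = Fintype.card α * m := by
      rw [Finset.card_product, Finset.card_univ, Finset.card_range]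
    have h3 : ∑ x ∈ (univ : Finset α) ×ˢ range m, (setO A t x.1 x.2).card ^ 2 ≤ INV := by
      calc ∑ x ∈ (univ : Finset α) ×ˢ range m, (setO A t x.1 x.2).card ^ 2
          ≤ ∑ x ∈ (univ : Finset α) ×ˢ range m, inv A t x.1 x.2 :=
            Finset.sum_le_sum (fun x _ => setO_sq_le A t x.1 x.2)
        _ = ∑ r, ∑ τ ∈ range m, inv A t r τ :=
            Finset.sum_product' (f := fun r τ => inv A t r τ) _ _
        _ = ∑ r, invr A t r := Finset.sum_congr rfl (fun r _ => sum_inv A t m hm r)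
        _ = INV := sum_invr A t
    rw [h2] at h1
    exact h1.trans (Nat.mul_le_mul_left _ h3)
  have hI2 : INV ^ 2 ≤ (Fintype.card β * w) *
      (2 * w ^ 2 * (Fintype.card α) ^ 2 + 2 * NI A) := by
    have h1 : INV ^ 2 ≤ (PR A t).card * ∑ p ∈ PR A t, mu A p ^ 2 :=
      sq_sum_le_card_mul_sum_sq
    have h2 : ∑ p ∈ PR A t, mu A p ^ 2 ≤ ∑ p ∈ PR A t, UU A p :=
      Finset.sum_le_sum (fun p hp => mu_sq_le A t p hp)
    exact h1.trans (Nat.mul_le_mul (card_PR_le A t w hw)
      (h2.trans (sum_UU_le A t m w hm hw hmono)))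
  have hJ4 : J ^ 4 ≤ (Fintype.card α * m) ^ 2 * ((Fintype.card β * w) *
      (2 * w ^ 2 * (Fintype.card α) ^ 2 + 2 * NI A)) := by
    calc J ^ 4 = (J ^ 2) ^ 2 := by ring
      _ ≤ ((Fintype.card α * m) * INV) ^ 2 := Nat.pow_le_pow_left hJ2 2
      _ = (Fintype.card α * m) ^ 2 * INV ^ 2 := by ring
      _ ≤ _ := Nat.mul_le_mul_left _ hI2
  calc (2 * J) ^ 4 = 16 * J ^ 4 := by ring
    _ ≤ 16 * ((Fintype.card α * m) ^ 2 * ((Fintype.card β * w) *
          (2 * w ^ 2 * (Fintype.card α) ^ 2 + 2 * NI A))) := Nat.mul_le_mul_left _ hJ4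
    _ = _ := by ring

end Vale.Agent.Lib.P037
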