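import Vale.Agent.Lib.P037.Strip

namespace Vale.Agent.Lib.P037

open Finset

set_option linter.unusedSectionVars false
set_option linter.unusedSimpArgs false

variable {α β : Type} [Fintype α] [Fintype β] [LinearOrder α] [LinearOrder β]

theorem fib_dn_fixC_le (A : α → β → Bool) (t : β → ℕ) (u v : α) (τ : ℕ) :
    fib t (dn (fixC A t) u v) τ ≤ fib t (dn A u v) τ := by
  have hL : fib t (dn (fixC A t) u v) τ ≤ sdeg A t u τ - sdeg A t v τ := by
    unfold fib
    have hset : (dn (fixC A t) u v).filter (fun c => t c = τ)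
        = (univ.filter (fun c => t c = τ ∧ rnk A t c < sdeg A t u τ)) \
          (univ.filter (fun c => t c = τ ∧ rnk A t c < sdeg A t v τ)) := by
      ext c
      simp only [mem_filter, mem_dn, mem_sdiff, mem_univ, true_and, fixC_apply,
        fixC_apply_false]
      constructor
      · rintro ⟨⟨h1, h2⟩, h3⟩
        rw [h3] at h1 h2
        exact ⟨⟨h3, h1⟩, fun h => h2 h.2⟩
      · rintro ⟨⟨h1, h2⟩, h3⟩
        rw [h1]
        exact ⟨⟨h2, fun h => h3 ⟨h1, h⟩⟩, rfl⟩
    rw [hset]
    rcases le_or_gt (sdeg A t v τ) (sdeg A t u τ) with h | h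
    · rw [Finset.card_sdiff_of_subset, card_rnk_lt A t τ _ (sdeg_le A t u τ),
        card_rnk_lt A t τ _ (sdeg_le A t v τ)]
      intro c hc
      simp only [mem_filter, mem_univ, true_and] at hc ⊢
      exact ⟨hc.1, by omega⟩
    · have hemp : (univ.filter (fun c => t c = τ ∧ rnk A t c < sdeg A t u τ)) \
          (univ.filter (fun c => t c = τ ∧ rnk A t c < sdeg A t v τ)) = ∅ := by
        rw [Finset.sdiff_eq_empty_iff_subset]
        intro c hc
        simp only [mem_filter, mem_univ, true_and] at hc ⊢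
        exact ⟨hc.1, by omega⟩
      rw [hemp]
      simp
  have hR : sdeg A t u τ - sdeg A t v τ ≤ fib t (dn A u v) τ := by
    have hset : (dn A u v).filter (fun c => t c = τ)
        = (univ.filter (fun c => t c = τ ∧ A u c = true)) \
          (univ.filter (fun c => t c = τ ∧ A v c = true)) := by
      ext c
      simp only [mem_filter, mem_dn, mem_sdiff, mem_univ, true_and]
      constructor
      · rintro ⟨⟨h1, h2⟩, h3⟩
        exact ⟨⟨h3, h1⟩, fun h => by simp [h2] at h⟩
      · rintro ⟨⟨h1, h2⟩, h3⟩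
        refine ⟨⟨h2, ?_⟩, h1⟩
        cases hv : A v c
        · rfl
        · exact absurd ⟨h1, hv⟩ h3
    unfold fib
    rw [hset]
    exact Finset.le_card_sdiff _ _
  exact hL.trans hR

theorem wid_le_kap (A : α → β → Bool) (t : β → ℕ) (hmono : Monotone t) (u v : α) :
    wid t (dn A u v) (dn A v u) ≤ kap A u v := by
  unfold kap wid
  apply Finset.card_le_card
  intro p hp
  simp only [mem_filter] at hp ⊢
  refine ⟨hp.1, ?_⟩
  by_contra hcon
  have h2 : t p.2 ≤ t p.1 := hmono (not_lt.1 hcon)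
  omega

theorem kap_fixC_le (A : α → β → Bool) (t : β → ℕ) (m : ℕ) (hm : ∀ c, t c < m)
    (hmono : Monotone t) (u v : α) : kap (fixC A t) u v ≤ kap A u v := by
  have h1 : kap (fixC A t) u v ≤ wid t (dn (fixC A t) u v) (dn (fixC A t) v u) := by
    unfold kap wid
    apply Finset.card_le_card
    intro p hp
    simp only [mem_filter, mem_product, mem_dn] at hp ⊢
    refine ⟨hp.1, ?_⟩
    have hle : t p.1 ≤ t p.2 := hmono hp.2.le
    rcases hle.lt_or_eq with h | h
    · exact h
    · exfalso
      exact fixC_chain A t u v p.1 p.2 trivial h ⟨hp.1.1.1, hp.1.2.2, hp.1.1.2, hp.1.2.1⟩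
  have h2 : wid t (dn (fixC A t) u v) (dn (fixC A t) v u) ≤ wid t (dn A u v) (dn A v u) :=
    wid_mono t _ _ _ _ m hm (fib_dn_fixC_le A t u v) (fib_dn_fixC_le A t v u)
  exact h1.trans (h2.trans (wid_le_kap A t hmono u v))

theorem NI_fixC_le (A : α → β → Bool) (t : β → ℕ) (m : ℕ) (hm : ∀ c, t c < m)
    (hmono : Monotone t) : NI (fixC A t) ≤ NI A := by
  unfold NI
  refine Finset.sum_le_sum (fun u _ => Finset.sum_le_sum (fun v _ => ?_))
  split_ifs
  · exact kap_fixC_le A t m hm hmono u v
  · exact le_rfl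

end Vale.Agent.Lib.P037
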